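import Vale.Agent.N141W.Riem
import Mathlib.Analysis.Calculus.BumpFunction.Normed
import Mathlib.Analysis.PSeries

/-!
# Transference, III: from the truncations on the line to `ℤ` (bumps at the integers)
-/

open MeasureTheory Set Filter Topology
open scoped ENNReal SchwartzMap

namespace Vale.Agent.N141W

open Vale.Agent.P141

theorem sub_rho {α E : Type*} [MeasurableSpace α] [NormedAddCommGroup E] {μ : Measure α}
    {r : ℝ≥0∞} (h0 : r ≠ 0) (ht : r ≠ ∞) {f g : α → E} (hf : AEStronglyMeasurable f μ)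
    (hg : AEStronglyMeasurable g μ) : eLpNorm (f + g) r μ ^ min r.toReal 1 ≤
      eLpNorm f r μ ^ min r.toReal 1 + eLpNorm g r μ ^ min r.toReal 1 := by
  rcases le_total r.toReal 1 with h | h
  · have hr := ENNReal.toReal_pos h0 ht
    rw [min_eq_left h, eLp_pow h0 ht, eLp_pow h0 ht, eLp_pow h0 ht,
      ← lintegral_add_left' (hf.enorm.pow_const _)]
    exact lintegral_mono fun x => (ENNReal.rpow_le_rpow (enorm_add_le _ _) hr.le).trans
      (ENNReal.rpow_add_le_add_rpow _ _ hr.le h)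
  · simp only [min_eq_right h, ENNReal.rpow_one]
    refine eLpNorm_add_le hf hg ?_
    rwa [← ENNReal.toReal_le_toReal ENNReal.one_ne_top ht, ENNReal.toReal_one]

theorem sum_rho {α E ι : Type*} [MeasurableSpace α] [NormedAddCommGroup E] {μ : Measure α}
    {r : ℝ≥0∞} (h0 : r ≠ 0) (ht : r ≠ ∞) {f : ι → α → E} (hf : ∀ i, AEStronglyMeasurable (f i) μ)
    (s : Finset ι) : eLpNorm (∑ i ∈ s, f i) r μ ^ min r.toReal 1 ≤
      ∑ i ∈ s, eLpNorm (f i) r μ ^ min r.toReal 1 := by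
  classical
  induction s using Finset.induction_on with
  | empty =>
    simp only [Finset.sum_empty, eLpNorm_zero]
    rw [ENNReal.zero_rpow_of_pos (lt_min (ENNReal.toReal_pos h0 ht) one_pos)]
  | insert a s ha ih =>
    rw [Finset.sum_insert ha, Finset.sum_insert ha]
    exact (sub_rho h0 ht (hf a) (Finset.aestronglyMeasurable_sum _ fun i _ => hf i)).trans
      (add_le_add le_rfl ih)

theorem floor_mp {δ : ℝ} (h1 : δ ≤ 1) : MeasurePreserving (Int.floor : ℝ → ℤ)
    (volume.restrict {y | Int.fract y < δ}) (ENNReal.ofReal δ • Measure.count) := by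
  refine ⟨Int.measurable_floor, Measure.ext_of_singleton fun k => ?_⟩
  rw [Measure.map_apply Int.measurable_floor (measurableSet_singleton _),
    Measure.restrict_apply (Int.measurable_floor (measurableSet_singleton _))]
  have : Int.floor ⁻¹' {k} ∩ {y : ℝ | Int.fract y < δ} = Ico (k : ℝ) (k + δ) := by
    ext y
    simp only [mem_inter_iff, mem_preimage, mem_singleton_iff, mem_ofPred_eq, mem_Ico, Int.fract]
    constructor
    · rintro ⟨rfl, h⟩
      exact ⟨Int.floor_le y, by linarith⟩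
    · rintro ⟨a, b⟩
      have : ⌊y⌋ = k := Int.floor_eq_iff.2 ⟨a, by linarith⟩
      exact ⟨this, by rw [this]; linarith⟩
  rw [this]
  simp

theorem round_mp : MeasurePreserving (fun y : ℝ => ⌊y + 1 / 2⌋) volume Measure.count := by
  have h := floor_mp (le_refl (1 : ℝ))
  have e : {y : ℝ | Int.fract y < 1} = univ := eq_univ_of_forall fun y => Int.fract_lt_one y
  rw [e, Measure.restrict_univ, ENNReal.ofReal_one, one_smul] at h
  exact h.comp (measurePreserving_add_right volume _)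

theorem trunc_meas {f₁ f₂ f₃ : ℝ → ℂ} (h₁ : Continuous f₁) (h₂ : Continuous f₂)
    (h₃ : Continuous f₃) (ε R : ℝ) : Measurable (truncTHT f₁ f₂ f₃ ε R) :=
  (StronglyMeasurable.integral_prod_right' (ν := volume.restrict {t : ℝ | ε < |t| ∧ |t| < R})
    ((pr_cont h₁ h₂ h₃).measurable.div
      (Complex.measurable_ofReal.comp measurable_snd)).stronglyMeasurable).measurable

/-- a sequence spread on bumps at the integers -/
theorem exists_ext (φ : ContDiffBump (0 : ℝ)) (hφ : φ.rOut ≤ 1 / 2) {f : ℤ → ℂ}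
    (hf : (Function.support f).Finite) : ∃ F : 𝓢(ℝ, ℂ),
      (∀ (y : ℝ) (k : ℤ), |y - k| ≤ 1 / 2 → F y = f k * φ (y - k)) ∧
      ∀ p, eLpNorm F p volume ≤ eLpNorm f p Measure.count := by
  have z : ∀ y : ℝ, 1 / 2 ≤ |y| → φ y = 0 := fun y hy =>
    φ.zero_of_le_dist (by rw [Real.dist_eq, sub_zero]; linarith)
  have hc : ∀ m : ℤ, HasCompactSupport fun y : ℝ => f m * (φ (y - m) : ℂ) := fun m =>
    HasCompactSupport.intro (isCompact_Icc (a := (m : ℝ) - 1) (b := m + 1)) fun y hy => by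
      rw [z, Complex.ofReal_zero, mul_zero]
      by_contra hc
      have := abs_lt.1 (not_le.1 hc)
      exact hy ⟨by linarith [this.1], by linarith [this.2]⟩
  have hs : ∀ m : ℤ, ContDiff ℝ (⊤ : ℕ∞) fun y : ℝ => f m * (φ (y - m) : ℂ) := fun m =>
    contDiff_const.mul (Complex.ofRealCLM.contDiff.comp
      (φ.contDiff.comp (contDiff_id.sub contDiff_const)))
  have key : ∀ (y : ℝ) (k : ℤ), |y - k| ≤ 1 / 2 →
      (∑ m ∈ hf.toFinset, (hc m).toSchwartzMap (hs m)) y = f k * φ (y - k) := by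
    intro y k hk
    rw [sum_apply, Finset.sum_eq_single k]
    · rfl
    · intro m _ hm
      show f m * (φ (y - m) : ℂ) = 0
      rw [z, Complex.ofReal_zero, mul_zero]
      have h1 : (1 : ℝ) ≤ |(k : ℝ) - m| := by
        exact_mod_cast Int.one_le_abs (sub_ne_zero.2 hm.symm)
      have h2 := abs_sub_le (k : ℝ) y m
      rw [abs_sub_comm (k : ℝ) y] at h2
      linarith
    · intro hk
      show f k * (φ (y - k) : ℂ) = 0
      rw [Function.notMem_support.1 fun h => hk (hf.mem_toFinset.2 h), zero_mul]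
  refine ⟨_, key, fun p => ?_⟩
  rw [← eLpNorm_comp_measurePreserving (measurable_of_countable f).aestronglyMeasurable round_mp]
  refine eLpNorm_mono fun y => ?_
  have a := Int.floor_le (y + 1 / 2)
  have b := Int.lt_floor_add_one (y + 1 / 2)
  rw [key y ⌊y + 1 / 2⌋ (abs_le.2 ⟨by linarith, by linarith⟩), norm_mul, Complex.norm_real,
    Real.norm_of_nonneg φ.nonneg]
  exact mul_le_of_le_one_right (norm_nonneg _) φ.le_one

/-- the narrow bump -/
noncomputable def φ₁ : ContDiffBump (0 : ℝ) := ⟨1 / 32, 1 / 16, by norm_num, by norm_num⟩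
/-- the wide bump -/
noncomputable def φ₂ : ContDiffBump (0 : ℝ) := ⟨3 / 8, 1 / 2, by norm_num, by norm_num⟩

theorem φ₁_zero {y : ℝ} (h : 1 / 16 ≤ |y|) : φ₁ y = 0 :=
  φ₁.zero_of_le_dist (by rw [Real.dist_eq, sub_zero]; exact h)

theorem φ₂_one {y : ℝ} (h : |y| ≤ 3 / 8) : φ₂ y = 1 :=
  φ₂.one_of_mem_closedBall (by rw [Metric.mem_closedBall, Real.dist_eq, sub_zero]; exact h)

/-- the kernel against one bump -/
theorem ker_one {s : ℝ} (h0 : 0 ≤ s) (h1 : s < 1 / 16) {n : ℤ} (hn : n ≠ 0) :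
    Integrable (fun t : ℝ => (φ₁ (s + n - t) : ℂ) / t) ∧
    ‖(∫ t : ℝ, (φ₁ (s + n - t) : ℂ) / t) - ((∫ t, φ₁ t : ℝ) : ℂ) / n‖ ≤
      (∫ t, φ₁ t) * |(n : ℝ)| ^ (-2 : ℝ) := by
  have n1 : (1 : ℝ) ≤ |(n : ℝ)| := by exact_mod_cast Int.one_le_abs hn
  have hi : Integrable fun t : ℝ => φ₁ (s + n - t) := φ₁.integrable.comp_sub_left _
  have hI : ∫ t : ℝ, φ₁ (s + n - t) = ∫ t, φ₁ t := integral_sub_left_eq_self _ volume _
  have bd : ∀ t : ℝ, ‖(φ₁ (s + n - t) : ℂ) / t - (φ₁ (s + n - t) : ℂ) / n‖ ≤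
      φ₁ (s + n - t) * |(n : ℝ)| ^ (-2 : ℝ) := by
    intro t
    by_cases h : 1 / 16 ≤ |s + n - t|
    · simp [φ₁_zero h]
    have a := abs_lt.1 (not_le.1 h)
    have b : |(n : ℝ) - t| ≤ 1 / 8 := abs_le.2 ⟨by linarith [a.1], by linarith [a.2]⟩
    have c : |(n : ℝ)| / 2 ≤ |t| := by
      have := abs_add_le ((n : ℝ) - t) t
      rw [sub_add_cancel] at this
      linarith
    have t0 : t ≠ 0 := abs_pos.1 (by linarith)
    have n0 : (n : ℝ) ≠ 0 := by exact_mod_cast hn
    have e : (φ₁ (s + n - t) : ℂ) / t - (φ₁ (s + n - t) : ℂ) / n =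
        ((φ₁ (s + n - t) * ((n - t) / (t * n)) : ℝ) : ℂ) := by
      have : (t : ℂ) ≠ 0 := by exact_mod_cast t0
      have : (n : ℂ) ≠ 0 := by exact_mod_cast hn
      push_cast
      field_simp
    rw [e, Complex.norm_real, Real.norm_eq_abs, abs_mul, abs_of_nonneg φ₁.nonneg]
    refine mul_le_mul_of_nonneg_left ?_ φ₁.nonneg
    rw [abs_div, abs_mul, Real.rpow_neg (abs_nonneg _), Real.rpow_two, ← one_div,
      div_le_div_iff₀ (by positivity) (by positivity)]
    nlinarith [mul_le_mul_of_nonneg_right c (abs_nonneg (n : ℝ)), sq_nonneg |(n : ℝ)|]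
  have i2 : Integrable fun t : ℝ => (φ₁ (s + n - t) : ℂ) / n := hi.ofReal.div_const _
  have i3 : Integrable fun t : ℝ => (φ₁ (s + n - t) : ℂ) / t - (φ₁ (s + n - t) : ℂ) / n :=
    (hi.mul_const _).mono' (((Complex.measurable_ofReal.comp (φ₁.continuous.measurable.comp
      (measurable_const.sub measurable_id))).div Complex.measurable_ofReal).aestronglyMeasurable.sub
      i2.aestronglyMeasurable) (ae_of_all _ bd)
  have i1 : Integrable fun t : ℝ => (φ₁ (s + n - t) : ℂ) / t := by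
    exact (i3.add i2).congr (ae_of_all _ fun t => sub_add_cancel _ _)
  refine ⟨i1, ?_⟩
  rw [← hI, ← integral_complex_ofReal, ← integral_div, ← integral_mul_const]
  refine le_trans (le_of_eq ?_) (norm_integral_le_of_norm_le (hi.mul_const _) (ae_of_all _ bd))
  rw [integral_sub i1 i2]

theorem bump_eq {f₁ f₂ f₃ : ℤ → ℂ} {F₁ F₂ F₃ : ℝ → ℂ}
    (h₁ : ∀ (y : ℝ) (k : ℤ), |y - k| ≤ 1 / 2 → F₁ y = f₁ k * φ₁ (y - k))
    (h₂ : ∀ (y : ℝ) (k : ℤ), |y - k| ≤ 1 / 2 → F₂ y = f₂ k * φ₂ (y - k))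
    (h₃ : ∀ (y : ℝ) (k : ℤ), |y - k| ≤ 1 / 2 → F₃ y = f₃ k * φ₂ (y - k)) (M N : ℕ) (x : ℤ) {s : ℝ}
    (h0 : 0 ≤ s) (h1 : s < 1 / 16) :
    truncTHT F₁ F₂ F₃ (M + 1 / 2) (N + 1 / 2) (x + s) =
      ∑ n ∈ Finset.Icc (-(N : ℤ)) N with (M : ℤ) < |n|,
        f₁ (x - n) * f₂ (x - 2 * n) * f₃ (x - 3 * n) * ∫ t : ℝ, (φ₁ (s + n - t) : ℂ) / t := by
  simp only [← integral_const_mul]
  rw [← integral_finsetSum _ fun n hn => (ker_one h0 h1 (by
    have := (Finset.mem_filter.1 hn).2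
    rintro rfl
    simp at this
    omega)).1.const_mul _, truncTHT, ← integral_indicator (an_meas _ _)]
  congr 1
  funext t
  by_cases h : ∃ n : ℤ, |s + n - t| < 1 / 16
  · obtain ⟨n, hn⟩ := h
    have a := abs_lt.1 hn
    have mem : n ∈ (Finset.Icc (-(N : ℤ)) N).filter (fun n => (M : ℤ) < |n|) ↔
        (M : ℝ) + 1 / 2 < |t| ∧ |t| < N + 1 / 2 := by
      have b : |(n : ℝ) - t| ≤ 1 / 8 := abs_le.2 ⟨by linarith [a.1], by linarith [a.2]⟩
      have c := abs_le.1 ((abs_abs_sub_abs_le_abs_sub (n : ℝ) t).trans b)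
      rw [← Int.cast_abs] at c
      rw [Finset.mem_filter, Finset.mem_Icc, ← abs_le]
      constructor
      · rintro ⟨u, v⟩
        have u' : ((|n| : ℤ) : ℝ) ≤ N := by exact_mod_cast u
        have v' : (M : ℝ) + 1 ≤ ((|n| : ℤ) : ℝ) := by exact_mod_cast v
        constructor <;> linarith [c.1, c.2]
      · rintro ⟨u, v⟩
        have u' : ((|n| : ℤ) : ℝ) < N + 1 := by linarith [c.2]
        have v' : (M : ℝ) < ((|n| : ℤ) : ℝ) := by linarith [c.1]
        exact ⟨Int.lt_add_one_iff.1 (by exact_mod_cast u'), by exact_mod_cast v'⟩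
    have other : ∀ m : ℤ, m ≠ n → f₁ (x - m) * f₂ (x - 2 * m) * f₃ (x - 3 * m) *
        ((φ₁ (s + m - t) : ℂ) / t) = 0 := by
      intro m hm
      have h1 : (1 : ℝ) ≤ |(m : ℝ) - n| := by exact_mod_cast Int.one_le_abs (sub_ne_zero.2 hm)
      have h2 := abs_sub (s + m - t) (s + n - t)
      rw [show s + m - t - (s + n - t) = m - n by ring] at h2
      rw [φ₁_zero (by linarith)]
      simp
    by_cases hm : (M : ℝ) + 1 / 2 < |t| ∧ |t| < N + 1 / 2
    · rw [indicator_of_mem (show t ∈ {t : ℝ | (M : ℝ) + 1 / 2 < |t| ∧ |t| < N + 1 / 2} from hm),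
        Finset.sum_eq_single_of_mem n (mem.2 hm) fun m _ hm => other m hm,
        h₁ _ (x - n) (by push_cast; rw [abs_le]; constructor <;> linarith [a.1, a.2]),
        h₂ _ (x - 2 * n) (by push_cast; rw [abs_le]; constructor <;> linarith [a.1, a.2]),
        h₃ _ (x - 3 * n) (by push_cast; rw [abs_le]; constructor <;> linarith [a.1, a.2]),
        φ₂_one (by push_cast; rw [abs_le]; constructor <;> linarith [a.1, a.2]),
        φ₂_one (by push_cast; rw [abs_le]; constructor <;> linarith [a.1, a.2]),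
        show (x : ℝ) + s - t - ((x - n : ℤ) : ℝ) = s + n - t by push_cast; ring]
      push_cast
      ring
    · rw [indicator_of_notMem (show t ∉ {t : ℝ | (M : ℝ) + 1 / 2 < |t| ∧ |t| < N + 1 / 2} from hm)]
      refine (Finset.sum_eq_zero fun m hm' => other m ?_).symm
      rintro rfl
      exact hm (mem.1 hm')
  · push Not at h
    rw [Finset.sum_eq_zero fun m _ => by rw [φ₁_zero (h m)]; simp]
    have a := Int.floor_le (x + s - t + 1 / 2)
    have b := Int.lt_floor_add_one (x + s - t + 1 / 2)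
    have z : F₁ (x + s - t) = 0 := by
      rw [h₁ _ ⌊x + s - t + 1 / 2⌋ (abs_le.2 ⟨by linarith, by linarith⟩), φ₁_zero]
      · simp
      · have := h (x - ⌊x + s - t + 1 / 2⌋)
        push_cast at this
        rwa [show (x : ℝ) + s - t - ⌊x + s - t + 1 / 2⌋ = s + (x - ⌊x + s - t + 1 / 2⌋) - t by ring]
    refine indicator_apply_eq_zero.2 fun _ => ?_
    rw [z]
    simp

theorem discFin_of_trunc {p₁ p₂ p₃ r : ℝ≥0∞} (h : IsHolderTuple p₁ p₂ p₃ r) (hr : 1 / 2 < r)
    (H : TruncBounded p₁ p₂ p₃ r) : DiscFin p₁ p₂ p₃ r := by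
  obtain ⟨C, hC, H⟩ := H
  have r0 := h.r_pos.ne'
  have rt := h.r_lt_top.ne
  set ρ : ℝ := min r.toReal 1 with hρ
  have hρ2 : 1 / 2 < ρ := by
    refine lt_min ?_ (by norm_num)
    have := (ENNReal.toReal_lt_toReal (by simp) rt).2 hr
    simpa using this
  have hρ0 : 0 < ρ := by linarith
  set c : ℝ := ∫ t, φ₁ t with hc
  have c0 : 0 < c := φ₁.integral_pos
  have hsum : Summable fun n : ℤ => |(n : ℝ)| ^ (-(2 * ρ)) :=
    Real.summable_abs_int_rpow (by linarith)
  set K : ℝ≥0∞ := ENNReal.ofReal (c ^ ρ * ∑' n : ℤ, |(n : ℝ)| ^ (-(2 * ρ))) with hK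
  set d : ℝ≥0∞ := ENNReal.ofReal c * ENNReal.ofReal (1 / 16) ^ (1 / r).toReal with hd
  have d0 : d ≠ 0 := mul_ne_zero (by simpa using c0)
    (ENNReal.rpow_pos (by norm_num) ENNReal.ofReal_ne_top).ne'
  have dt : d ≠ ∞ := ENNReal.mul_ne_top ENNReal.ofReal_ne_top
    (ENNReal.rpow_ne_top_of_nonneg ENNReal.toReal_nonneg ENNReal.ofReal_ne_top)
  refine ⟨d⁻¹ * (C ^ ρ + K) ^ (1 / ρ), ENNReal.mul_lt_top (ENNReal.inv_lt_top.2 d0.bot_lt)
    (ENNReal.rpow_lt_top_of_nonneg (by positivity) (ENNReal.add_ne_top.2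
      ⟨ENNReal.rpow_ne_top_of_nonneg hρ0.le hC.ne, ENNReal.ofReal_ne_top⟩)), ?_⟩
  intro f₁ f₂ f₃ s₁ s₂ s₃ M N
  rcases le_or_gt N M with hMN | hMN
  · have : dH f₁ f₂ f₃ M N = 0 := by
      funext x
      refine Finset.sum_eq_zero fun n hn => ?_
      have a := abs_le.2 (Finset.mem_Icc.1 (Finset.mem_filter.1 hn).1)
      have b := (Finset.mem_filter.1 hn).2
      omega
    rw [this, eLpNorm_zero]
    exact zero_le
  obtain ⟨F₁, e₁, n₁⟩ := exists_ext φ₁ (by norm_num [φ₁]) s₁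
  obtain ⟨F₂, e₂, n₂⟩ := exists_ext φ₂ (by norm_num [φ₂]) s₂
  obtain ⟨F₃, e₃, n₃⟩ := exists_ext φ₂ (by norm_num [φ₂]) s₃
  set B := eLpNorm f₁ p₁ Measure.count * eLpNorm f₂ p₂ Measure.count * eLpNorm f₃ p₃ Measure.count
    with hB
  set A := (Finset.Icc (-(N : ℤ)) N).filter fun n => (M : ℤ) < |n| with hA
  set T := truncTHT F₁ F₂ F₃ (M + 1 / 2) (N + 1 / 2) with hT
  have hTm : Measurable T := trunc_meas F₁.continuous F₂.continuous F₃.continuous _ _
  have hTB : eLpNorm T r volume ≤ C * B := by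
    refine (H F₁ F₂ F₃ _ _ (by positivity) (by
      have : (M : ℝ) < N := by exact_mod_cast hMN
      linarith)).trans ?_
    rw [hB, ← mul_assoc, ← mul_assoc]
    gcongr
    exacts [n₁ _, n₂ _, n₃ _]
  set ν : Measure ℝ := volume.restrict {y | Int.fract y < 1 / 16} with hν
  have mp := floor_mp (show (1 / 16 : ℝ) ≤ 1 by norm_num)
  set P : ℤ → ℤ → ℂ := fun n k => f₁ (k - n) * f₂ (k - 2 * n) * f₃ (k - 3 * n) with hP
  set E : ℤ → ℝ → ℝ := fun n y => (c * |(n : ℝ)| ^ (-2 : ℝ)) * ‖P n ⌊y⌋‖ with hE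
  have hEm : ∀ n, AEStronglyMeasurable (E n) ν := fun n =>
    (((measurable_of_countable (P n)).comp Int.measurable_floor).norm.const_mul
      _).aestronglyMeasurable
  have hEB : ∀ n, eLpNorm (E n) r ν ^ ρ ≤
      ENNReal.ofReal (c ^ ρ * |(n : ℝ)| ^ (-(2 * ρ))) * B ^ ρ := by
    intro n
    have a : eLpNorm (P n ∘ Int.floor) r ν ≤ B := by
      rw [eLpNorm_comp_measurePreserving (measurable_of_countable _).aestronglyMeasurable mp]
      refine (eLpNorm_mono_measure _ (Measure.le_iff'.2 fun s => ?_)).trans ((holder3 h.holder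
        (μ := Measure.count) (measurable_of_countable _).aestronglyMeasurable
        (measurable_of_countable _).aestronglyMeasurable
        (measurable_of_countable _).aestronglyMeasurable).trans (le_of_eq ?_))
      · rw [Measure.smul_apply, smul_eq_mul]
        exact mul_le_of_le_one_left zero_le (ENNReal.ofReal_le_one.2 (by norm_num))
      · have t : ∀ (f : ℤ → ℂ) (p : ℝ≥0∞) (a : ℤ), eLpNorm (fun k => f (k - a)) p Measure.count =
            eLpNorm f p Measure.count := fun f p a => eLpNorm_comp_measurePreserving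
          (measurable_of_countable f).aestronglyMeasurable (measurePreserving_sub_right _ a)
        rw [t, t, t]
    have b : eLpNorm (E n) r ν ≤ ENNReal.ofReal (c * |(n : ℝ)| ^ (-2 : ℝ)) * B := by
      have := eLpNorm_const_smul (c * |(n : ℝ)| ^ (-2 : ℝ)) (fun y => ‖(P n ∘ Int.floor) y‖) r ν
      rw [eLpNorm_norm, Real.enorm_eq_ofReal (by positivity)] at this
      exact this.le.trans (mul_le_mul_right a _)
    refine (ENNReal.rpow_le_rpow b hρ0.le).trans (le_of_eq ?_)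
    rw [ENNReal.mul_rpow_of_nonneg _ _ hρ0.le, ENNReal.ofReal_rpow_of_nonneg (by positivity) hρ0.le,
      Real.mul_rpow c0.le (by positivity), ← Real.rpow_mul (abs_nonneg _), neg_mul]
  have main : eLpNorm (((c : ℂ) • dH f₁ f₂ f₃ M N) ∘ Int.floor) r ν ≤
      eLpNorm ((fun y => ‖T y‖) + ∑ n ∈ A, E n) r ν := by
    refine eLpNorm_mono_ae ?_
    filter_upwards [ae_restrict_mem (measurableSet_lt measurable_fract measurable_const)] with y hy
    have e := bump_eq e₁ e₂ e₃ M N ⌊y⌋ (Int.fract_nonneg y) hy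
    rw [Int.floor_add_fract] at e
    refine le_trans ?_ (le_abs_self _)
    have e2 : (((c : ℂ) • dH f₁ f₂ f₃ M N) ∘ Int.floor) y = T y - ∑ n ∈ A, P n ⌊y⌋ *
        ((∫ t : ℝ, (φ₁ (Int.fract y + n - t) : ℂ) / t) - (c : ℂ) / n) := by
      rw [hT, e, ← Finset.sum_sub_distrib]
      simp only [Function.comp, Pi.smul_apply, smul_eq_mul, dH, Finset.mul_sum]
      exact Finset.sum_congr rfl fun n _ => by simp only [hP]; ring
    rw [e2, Pi.add_apply, Finset.sum_apply]
    refine (norm_sub_le _ _).trans (add_le_add le_rfl ((norm_sum_le _ _).trans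
      (Finset.sum_le_sum fun n hn => ?_)))
    rw [norm_mul, mul_comm]
    refine mul_le_mul_of_nonneg_right (ker_one (Int.fract_nonneg y) hy ?_).2 (norm_nonneg _)
    have := (Finset.mem_filter.1 hn).2
    rintro rfl
    simp at this
    omega
  rw [eLpNorm_comp_measurePreserving (measurable_of_countable _).aestronglyMeasurable mp,
    eLpNorm_smul_measure_of_ne_top rt, eLpNorm_const_smul, smul_eq_mul] at main
  have m2 := (ENNReal.rpow_le_rpow main hρ0.le).trans (sub_rho r0 rt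
    hTm.norm.aestronglyMeasurable (Finset.aestronglyMeasurable_sum _ fun n _ => hEm n))
  have m3 : eLpNorm (fun y => ‖T y‖) r ν ^ ρ + eLpNorm (∑ n ∈ A, E n) r ν ^ ρ ≤
      (C ^ ρ + K) * B ^ ρ := by
    rw [add_mul, ← ENNReal.mul_rpow_of_nonneg _ _ hρ0.le]
    refine add_le_add (ENNReal.rpow_le_rpow ?_ hρ0.le) ((sum_rho r0 rt hEm A).trans
      ((Finset.sum_le_sum fun n _ => hEB n).trans ?_))
    · rw [eLpNorm_norm]
      exact (eLpNorm_mono_measure _ Measure.restrict_le_self).trans hTB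
    · rw [← Finset.sum_mul, ← ENNReal.ofReal_sum_of_nonneg fun _ _ => by positivity,
        ← Finset.mul_sum]
      exact mul_le_mul_left (ENNReal.ofReal_le_ofReal (mul_le_mul_of_nonneg_left
        (hsum.sum_le_tsum _ fun _ _ => by positivity) (by positivity))) _
  have m4 := ENNReal.rpow_le_rpow (m2.trans m3) (show 0 ≤ 1 / ρ by positivity)
  rw [← ENNReal.rpow_mul, mul_one_div_cancel hρ0.ne', ENNReal.rpow_one,
    ENNReal.mul_rpow_of_nonneg _ _ (by positivity), ← ENNReal.rpow_mul,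
    mul_one_div_cancel hρ0.ne', ENNReal.rpow_one] at m4
  have ec : ‖(c : ℂ)‖ₑ = ENNReal.ofReal c := by
    rw [← ofReal_norm, Complex.norm_real, Real.norm_of_nonneg c0.le]
  calc eLpNorm (dH f₁ f₂ f₃ M N) r Measure.count
      = d⁻¹ * (d * eLpNorm (dH f₁ f₂ f₃ M N) r Measure.count) := by
        rw [← mul_assoc, ENNReal.inv_mul_cancel d0 dt, one_mul]
    _ ≤ d⁻¹ * ((C ^ ρ + K) ^ (1 / ρ) * B) := by
        refine mul_le_mul_right (le_trans (le_of_eq ?_) m4) _
        rw [hd, ec]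
        ring
    _ = _ := by rw [hB]; ring

end Vale.Agent.N141W
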