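import Vale.Agent.P141.Defs
import Mathlib.MeasureTheory.Integral.Average

open MeasureTheory
open scoped ENNReal SchwartzMap

namespace Vale.Agent.N141W

open Vale.Agent.P141

/-- The truncations `T_{ε,R}` are bounded at the tuple, with one constant for all `0 < ε < R`. -/
def TruncBounded (p₁ p₂ p₃ r : ℝ≥0∞) : Prop :=
  ∃ C : ℝ≥0∞, C < ∞ ∧ ∀ (f₁ f₂ f₃ : 𝓢(ℝ, ℂ)) (ε R : ℝ), 0 < ε → ε < R →
    eLpNorm (truncTHT f₁ f₂ f₃ ε R) r volume ≤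
      C * eLpNorm f₁ p₁ volume * eLpNorm f₂ p₂ volume * eLpNorm f₃ p₃ volume

/-- The ergodic trilinear Hilbert transform: the sum of `f₁(Sⁿx) f₂(S²ⁿx) f₃(S³ⁿx) / n` over the
integers `n` with `M < |n| ≤ N`. -/
noncomputable def ergTHT {X : Type} (S : Equiv.Perm X) (f₁ f₂ f₃ : X → ℂ) (M N : ℕ) (x : X) : ℂ :=
  ∑ n ∈ Finset.Icc (-(N : ℤ)) N with (M : ℤ) < |n|,
    f₁ ((S ^ n) x) * f₂ ((S ^ (2 * n)) x) * f₃ ((S ^ (3 * n)) x) / (n : ℂ)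

/-- One constant bounds the ergodic transforms for all measure spaces, all invertible measure
preserving maps, all measurable functions and all `M`, `N`. -/
def ErgBounded (p₁ p₂ p₃ r : ℝ≥0∞) : Prop :=
  ∃ C : ℝ≥0∞, C < ∞ ∧ ∀ (X : Type) [MeasurableSpace X] (μ : Measure X) (S : Equiv.Perm X),
    MeasurePreserving S μ μ → Measurable S.symm →
    ∀ f₁ f₂ f₃ : X → ℂ, Measurable f₁ → Measurable f₂ → Measurable f₃ → ∀ M N : ℕ,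
      eLpNorm (ergTHT S f₁ f₂ f₃ M N) r μ ≤
        C * eLpNorm f₁ p₁ μ * eLpNorm f₂ p₂ μ * eLpNorm f₃ p₃ μ

/-- One constant bounds the discrete transforms on `ℤ` (shift, counting measure). -/
def DiscBounded (p₁ p₂ p₃ r : ℝ≥0∞) : Prop :=
  ∃ C : ℝ≥0∞, C < ∞ ∧ ∀ (f₁ f₂ f₃ : ℤ → ℂ) (M N : ℕ),
    eLpNorm (ergTHT (Equiv.subRight 1) f₁ f₂ f₃ M N) r Measure.count ≤
      C * eLpNorm f₁ p₁ Measure.count * eLpNorm f₂ p₂ Measure.count * eLpNorm f₃ p₃ Measure.count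

/-- `S` is `T(f₁,f₂,f₃)` or one of its truncations. -/
def IsT (f₁ f₂ f₃ S : ℝ → ℂ) : Prop :=
  S = THT f₁ f₂ f₃ ∨ ∃ ε R : ℝ, 0 < ε ∧ ε < R ∧ S = truncTHT f₁ f₂ f₃ ε R

/-- Muckenhoupt's class `A_q`. -/
def IsAp (q : ℝ) (w : ℝ → ℝ≥0∞) : Prop :=
  Measurable w ∧ (∀ᵐ x, w x ≠ 0 ∧ w x ≠ ∞) ∧ ∃ K : ℝ≥0∞, K < ∞ ∧ ∀ a b : ℝ, a < b →
    (⨍⁻ x in Set.Ioo a b, w x ∂volume) *
      (⨍⁻ x in Set.Ioo a b, w x ^ (-1 / (q - 1)) ∂volume) ^ (q - 1) ≤ K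

end Vale.Agent.N141W
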