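import Vale.Agent.N141W.Defs

/-!
# Transference, I: from fibres to products, and from `ℤ` to measure preserving maps
-/

open MeasureTheory Set Filter Topology
open scoped ENNReal SchwartzMap

namespace Vale.Agent.N141W

open Vale.Agent.P141

theorem _root_.Vale.Agent.P141.IsHolderTuple.ne₁ {p₁ p₂ p₃ r : ℝ≥0∞}
    (h : IsHolderTuple p₁ p₂ p₃ r) : p₁ ≠ 0 := (zero_lt_one.trans h.one_lt_p₁).ne'
theorem _root_.Vale.Agent.P141.IsHolderTuple.ne₂ {p₁ p₂ p₃ r : ℝ≥0∞}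
    (h : IsHolderTuple p₁ p₂ p₃ r) : p₂ ≠ 0 := (zero_lt_one.trans h.one_lt_p₂).ne'
theorem _root_.Vale.Agent.P141.IsHolderTuple.ne₃ {p₁ p₂ p₃ r : ℝ≥0∞}
    (h : IsHolderTuple p₁ p₂ p₃ r) : p₃ ≠ 0 := (zero_lt_one.trans h.one_lt_p₃).ne'

theorem holder_real {p₁ p₂ p₃ r : ℝ≥0∞} (h : IsHolderTuple p₁ p₂ p₃ r) :
    (r⁻¹).toReal = (p₁⁻¹).toReal + (p₂⁻¹).toReal + (p₃⁻¹).toReal := by
  have a := ENNReal.inv_ne_top.2 h.ne₁
  have b := ENNReal.inv_ne_top.2 h.ne₂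
  have c := ENNReal.inv_ne_top.2 h.ne₃
  rw [h.holder, ENNReal.toReal_add (ENNReal.add_ne_top.2 ⟨a, b⟩) c, ENNReal.toReal_add a b]

theorem r_pos {p₁ p₂ p₃ r : ℝ≥0∞} (h : IsHolderTuple p₁ p₂ p₃ r) : 0 < r.toReal :=
  ENNReal.toReal_pos h.r_pos.ne' h.r_lt_top.ne

theorem eLp_pow {α E : Type*} [MeasurableSpace α] [ENorm E] {μ : Measure α} {p : ℝ≥0∞} (h0 : p ≠ 0)
    (ht : p ≠ ∞) (f : α → E) : eLpNorm f p μ ^ p.toReal = ∫⁻ x, ‖f x‖ₑ ^ p.toReal ∂μ := by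
  have := ENNReal.toReal_pos h0 ht
  rw [eLpNorm_eq_lintegral_rpow_enorm_toReal h0 ht, ← ENNReal.rpow_mul,
    one_div_mul_cancel this.ne', ENNReal.rpow_one]

/-- Hoelder's inequality for three functions -/
theorem holder3 {α : Type*} [MeasurableSpace α] {μ : Measure α} {p₁ p₂ p₃ r : ℝ≥0∞}
    (h : r⁻¹ = p₁⁻¹ + p₂⁻¹ + p₃⁻¹) {f₁ f₂ f₃ : α → ℂ} (h₁ : AEStronglyMeasurable f₁ μ)
    (h₂ : AEStronglyMeasurable f₂ μ) (h₃ : AEStronglyMeasurable f₃ μ) :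
    eLpNorm (fun x => f₁ x * f₂ x * f₃ x) r μ ≤
      eLpNorm f₁ p₁ μ * eLpNorm f₂ p₂ μ * eLpNorm f₃ p₃ μ := by
  have : ENNReal.HolderTriple p₁ p₂ (p₁⁻¹ + p₂⁻¹)⁻¹ := ⟨by rw [inv_inv]⟩
  have : ENNReal.HolderTriple (p₁⁻¹ + p₂⁻¹)⁻¹ p₃ r := ⟨by rw [inv_inv, h]⟩
  have a := eLpNorm_smul_le_mul_eLpNorm (p := p₁) (q := p₂) (r := (p₁⁻¹ + p₂⁻¹)⁻¹) h₂ h₁
  have b := eLpNorm_smul_le_mul_eLpNorm (p := (p₁⁻¹ + p₂⁻¹)⁻¹) (q := p₃) (r := r) h₃ (h₁.smul h₂)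
  exact b.trans (mul_le_mul_left a _)

section
variable {X Y : Type*} [MeasurableSpace X] [MeasurableSpace Y] (μ : Measure X) (ν : Measure Y)
  [SFinite ν]

theorem fibre {F : X × Y → ℂ} (hF : Measurable F) {p : ℝ≥0∞} (hp : p ≠ 0) {r : ℝ} (hr : 0 < r) :
    ∃ (G : X → ℝ≥0∞) (B : ℝ≥0∞), Measurable G ∧
      (∀ᵐ x ∂μ, eLpNorm (fun y => F (x, y)) p ν ^ r ≤ B * G x ^ (r * (p⁻¹).toReal)) ∧
      B * (∫⁻ x, G x ∂μ) ^ (r * (p⁻¹).toReal) = eLpNorm F p (μ.prod ν) ^ r := by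
  rcases eq_or_ne p ∞ with rfl | ht
  · refine ⟨fun _ => 0, eLpNorm F ∞ (μ.prod ν) ^ r, measurable_const, ?_, by simp⟩
    filter_upwards [Measure.ae_ae_of_ae_prod (ae_le_eLpNormEssSup (f := F) (μ := μ.prod ν))]
      with x hx
    simp only [ENNReal.inv_top, ENNReal.toReal_zero, mul_zero, ENNReal.rpow_zero, mul_one,
      eLpNorm_exponent_top]
    exact ENNReal.rpow_le_rpow (eLpNormEssSup_le_of_ae_enorm_bound hx) hr.le
  · have hm : Measurable fun z => ‖F z‖ₑ ^ p.toReal := hF.enorm.pow_const _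
    refine ⟨fun x => ∫⁻ y, ‖F (x, y)‖ₑ ^ p.toReal ∂ν, 1, hm.lintegral_prod_right',
      ae_of_all _ fun x => le_of_eq ?_, ?_⟩
    · rw [eLpNorm_eq_lintegral_rpow_enorm_toReal hp ht, ← ENNReal.rpow_mul, one_mul,
        ENNReal.toReal_inv, one_div, mul_comm]
    · rw [eLpNorm_eq_lintegral_rpow_enorm_toReal hp ht, ← ENNReal.rpow_mul, one_mul,
        ENNReal.toReal_inv, one_div, mul_comm, lintegral_prod _ hm.aemeasurable]

/-- an estimate on all fibres passes to the product -/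
theorem fub {p₁ p₂ p₃ r C : ℝ≥0∞} (h : IsHolderTuple p₁ p₂ p₃ r) {H F₁ F₂ F₃ : X × Y → ℂ}
    (hH : Measurable H) (h₁ : Measurable F₁) (h₂ : Measurable F₂) (h₃ : Measurable F₃)
    (hb : ∀ x, eLpNorm (fun y => H (x, y)) r ν ≤ C * eLpNorm (fun y => F₁ (x, y)) p₁ ν *
      eLpNorm (fun y => F₂ (x, y)) p₂ ν * eLpNorm (fun y => F₃ (x, y)) p₃ ν) :
    eLpNorm H r (μ.prod ν) ≤
      C * eLpNorm F₁ p₁ (μ.prod ν) * eLpNorm F₂ p₂ (μ.prod ν) * eLpNorm F₃ p₃ (μ.prod ν) := by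
  have hr := r_pos h
  obtain ⟨G₁, B₁, m₁, a₁, e₁⟩ := fibre μ ν h₁ h.ne₁ hr
  obtain ⟨G₂, B₂, m₂, a₂, e₂⟩ := fibre μ ν h₂ h.ne₂ hr
  obtain ⟨G₃, B₃, m₃, a₃, e₃⟩ := fibre μ ν h₃ h.ne₃ hr
  rw [← ENNReal.rpow_le_rpow_iff hr, eLp_pow h.r_pos.ne' h.r_lt_top.ne,
    lintegral_prod _ (hH.enorm.pow_const _).aemeasurable]
  simp only [ENNReal.mul_rpow_of_nonneg _ _ hr.le, ← e₁, ← e₂, ← e₃]
  have hs : r.toReal * (p₁⁻¹).toReal + r.toReal * (p₂⁻¹).toReal + r.toReal * (p₃⁻¹).toReal = 1 := by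
    rw [← mul_add, ← mul_add, ← holder_real h, ENNReal.toReal_inv, mul_inv_cancel₀ hr.ne']
  have key := ENNReal.lintegral_prod_norm_pow_le (μ := μ) (Finset.univ : Finset (Fin 3))
    (f := ![G₁, G₂, G₃]) (fun i _ => by
      fin_cases i
      exacts [m₁.aemeasurable, m₂.aemeasurable, m₃.aemeasurable])
    (p := ![r.toReal * (p₁⁻¹).toReal, r.toReal * (p₂⁻¹).toReal, r.toReal * (p₃⁻¹).toReal])
    (by simpa [Fin.sum_univ_three] using hs) (fun i _ => by fin_cases i <;> simp <;> positivity)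
  simp only [Fin.prod_univ_three, Matrix.cons_val_zero, Matrix.cons_val_one,
    Matrix.cons_val] at key
  calc ∫⁻ x, ∫⁻ y, ‖H (x, y)‖ₑ ^ r.toReal ∂ν ∂μ
      ≤ ∫⁻ x, (C ^ r.toReal * B₁ * B₂ * B₃) * (G₁ x ^ (r.toReal * (p₁⁻¹).toReal) *
          G₂ x ^ (r.toReal * (p₂⁻¹).toReal) * G₃ x ^ (r.toReal * (p₃⁻¹).toReal)) ∂μ := by
        refine lintegral_mono_ae ?_
        filter_upwards [a₁, a₂, a₃] with x x₁ x₂ x₃
        rw [← eLp_pow h.r_pos.ne' h.r_lt_top.ne (fun y => H (x, y))]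
        refine (ENNReal.rpow_le_rpow (hb x) hr.le).trans ?_
        simp only [ENNReal.mul_rpow_of_nonneg _ _ hr.le]
        refine (mul_le_mul' (mul_le_mul' (mul_le_mul' le_rfl x₁) x₂) x₃).trans (le_of_eq ?_)
        ring
    _ = _ := lintegral_const_mul _ (((m₁.pow_const _).mul (m₂.pow_const _)).mul (m₃.pow_const _))
    _ ≤ _ := mul_le_mul_right key _
    _ = _ := by ring
end

/-- the discrete transform -/
noncomputable def dH (f₁ f₂ f₃ : ℤ → ℂ) (M N : ℕ) (x : ℤ) : ℂ :=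
  ∑ n ∈ Finset.Icc (-(N : ℤ)) N with (M : ℤ) < |n|,
    f₁ (x - n) * f₂ (x - 2 * n) * f₃ (x - 3 * n) / (n : ℂ)

/-- the discrete bound for finitely supported sequences -/
def DiscFin (p₁ p₂ p₃ r : ℝ≥0∞) : Prop :=
  ∃ C : ℝ≥0∞, C < ∞ ∧ ∀ (f₁ f₂ f₃ : ℤ → ℂ), (Function.support f₁).Finite →
    (Function.support f₂).Finite → (Function.support f₃).Finite → ∀ M N : ℕ,
    eLpNorm (dH f₁ f₂ f₃ M N) r Measure.count ≤
      C * eLpNorm f₁ p₁ Measure.count * eLpNorm f₂ p₂ Measure.count * eLpNorm f₃ p₃ Measure.count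

theorem subRight_zpow {G : Type*} [AddCommGroup G] (h : G) (n : ℤ) (x : G) :
    ((Equiv.subRight h : Equiv.Perm G) ^ n) x = x - n • h := by
  induction n using Int.induction_on generalizing x with
  | zero => simp
  | succ n ih =>
    rw [zpow_add_one, Equiv.Perm.mul_apply, ih, add_smul, one_smul]
    simp only [Equiv.subRight_apply]
    abel
  | pred n ih =>
    rw [zpow_sub_one, Equiv.Perm.mul_apply, ih, sub_smul, one_smul]
    have : (Equiv.subRight h : Equiv.Perm G)⁻¹ x = x + h := rfl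
    rw [this]
    abel

theorem erg_eq_dH (f₁ f₂ f₃ : ℤ → ℂ) (M N : ℕ) :
    ergTHT (Equiv.subRight 1) f₁ f₂ f₃ M N = dH f₁ f₂ f₃ M N := by
  funext x
  simp only [ergTHT, dH, subRight_zpow, smul_eq_mul, mul_one]

section
variable {X : Type} [MeasurableSpace X] {μ : Measure X} {S : Equiv.Perm X}

theorem mp_zpow (h : MeasurePreserving S μ μ) (h' : Measurable S.symm) (n : ℤ) :
    MeasurePreserving (S ^ n : Equiv.Perm X) μ μ := by
  have hs : MeasurePreserving S.symm μ μ :=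
    MeasurePreserving.symm (⟨S, h.measurable, h'⟩ : X ≃ᵐ X) h
  induction n using Int.induction_on with
  | zero => exact MeasurePreserving.id μ
  | succ n ih => rw [zpow_add_one]; exact ih.comp h
  | pred n ih => rw [zpow_sub_one]; exact ih.comp hs

/-- a piece of the orbit -/
noncomputable def orb (S : Equiv.Perm X) (f : X → ℂ) (K : ℕ) (z : X × ℤ) : ℂ :=
  if z.2 ∈ Finset.Icc (-(K : ℤ)) K then f ((S ^ (-z.2)) z.1) else 0

theorem orb_meas (h : MeasurePreserving S μ μ) (h' : Measurable S.symm) {f : X → ℂ}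
    (hf : Measurable f) (K : ℕ) : Measurable (orb S f K) := by
  refine measurable_from_prod_countable_left fun m => ?_
  unfold orb
  by_cases hm : m ∈ Finset.Icc (-(K : ℤ)) K
  · simp only [hm, if_true]
    exact hf.comp (mp_zpow h h' _).measurable
  · simp only [hm, if_false]
    exact measurable_const

theorem orb_eq (h : MeasurePreserving S μ μ) (h' : Measurable S.symm) {f : X → ℂ}
    (hf : Measurable f) (K : ℕ) {p : ℝ≥0∞} (h0 : p ≠ 0) (ht : p ≠ ∞) :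
    eLpNorm (orb S f K) p (μ.prod Measure.count) =
      ((2 * K + 1 : ℕ) : ℝ≥0∞) ^ (p⁻¹).toReal * eLpNorm f p μ := by
  have hp := ENNReal.toReal_pos h0 ht
  have hm : ∀ m : ℤ, Measurable fun x => ‖f ((S ^ (-m)) x)‖ₑ ^ p.toReal := fun m =>
    (hf.comp (mp_zpow h h' _).measurable).enorm.pow_const _
  rw [eLpNorm_eq_lintegral_rpow_enorm_toReal h0 ht, eLpNorm_eq_lintegral_rpow_enorm_toReal h0 ht,
    ENNReal.toReal_inv, one_div, ← ENNReal.mul_rpow_of_nonneg _ _ (by positivity),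
    lintegral_prod _ ((orb_meas h h' hf K).enorm.pow_const _).aemeasurable]
  congr 1
  have e : ∀ x, ∫⁻ m, ‖orb S f K (x, m)‖ₑ ^ p.toReal ∂Measure.count =
      ∑ m ∈ Finset.Icc (-(K : ℤ)) K, ‖f ((S ^ (-m)) x)‖ₑ ^ p.toReal := by
    intro x
    rw [lintegral_count, tsum_eq_sum (s := Finset.Icc (-(K : ℤ)) K)]
    · exact Finset.sum_congr rfl fun m hm => by simp only [orb, hm, if_true]
    · intro m hm
      simp only [orb, hm, if_false, enorm_zero, ENNReal.zero_rpow_of_pos hp]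
  simp only [e]
  rw [lintegral_finsetSum _ fun m _ => hm m]
  have e2 : ∀ m : ℤ, ∫⁻ x, ‖f ((S ^ (-m)) x)‖ₑ ^ p.toReal ∂μ = ∫⁻ x, ‖f x‖ₑ ^ p.toReal ∂μ :=
    fun m => (mp_zpow h h' (-m)).lintegral_comp (hf.enorm.pow_const _)
  simp only [e2, Finset.sum_const, Int.card_Icc, nsmul_eq_mul]
  congr 2
  omega

theorem orb_le (h : MeasurePreserving S μ μ) (h' : Measurable S.symm) {f : X → ℂ}
    (hf : Measurable f) (K : ℕ) {p : ℝ≥0∞} (h0 : p ≠ 0) :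
    eLpNorm (orb S f K) p (μ.prod Measure.count) ≤
      ((2 * K + 1 : ℕ) : ℝ≥0∞) ^ (p⁻¹).toReal * eLpNorm f p μ := by
  rcases eq_or_ne p ∞ with rfl | ht
  · simp only [ENNReal.inv_top, ENNReal.toReal_zero, ENNReal.rpow_zero, one_mul,
      eLpNorm_exponent_top]
    refine eLpNormEssSup_le_of_ae_enorm_bound ?_
    rw [Measure.ae_prod_iff_ae_ae (measurableSet_le (orb_meas h h' hf K).enorm measurable_const)]
    have : ∀ᵐ x ∂μ, ∀ m : ℤ, ‖f ((S ^ (-m)) x)‖ₑ ≤ eLpNormEssSup f μ :=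
      ae_all_iff.2 fun m => (mp_zpow h h' (-m)).quasiMeasurePreserving.ae ae_le_eLpNormEssSup
    filter_upwards [this] with x hx
    refine ae_of_all _ fun m => ?_
    unfold orb
    split_ifs
    · exact hx m
    · simp
  · exact (orb_eq h h' hf K h0 ht).le

theorem erg_meas (h : MeasurePreserving S μ μ) (h' : Measurable S.symm) {f₁ f₂ f₃ : X → ℂ}
    (h₁ : Measurable f₁) (h₂ : Measurable f₂) (h₃ : Measurable f₃) (M N : ℕ) :
    Measurable (ergTHT S f₁ f₂ f₃ M N) :=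
  Finset.measurable_sum _ fun _ _ => (((h₁.comp (mp_zpow h h' _).measurable).mul
    (h₂.comp (mp_zpow h h' _).measurable)).mul (h₃.comp (mp_zpow h h' _).measurable)).div_const _

end

/-- **Calderón's transference** -/
theorem erg_of_discFin {p₁ p₂ p₃ r : ℝ≥0∞} (h : IsHolderTuple p₁ p₂ p₃ r)
    (H : DiscFin p₁ p₂ p₃ r) : ErgBounded p₁ p₂ p₃ r := by
  obtain ⟨C, hC, H⟩ := H
  refine ⟨C * 4 ^ (r⁻¹).toReal, ENNReal.mul_lt_top hC
    (ENNReal.rpow_lt_top_of_nonneg ENNReal.toReal_nonneg (by simp)), ?_⟩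
  intro X _ μ S hS hS' f₁ f₂ f₃ h₁ h₂ h₃ M N
  have hE := erg_meas hS hS' h₁ h₂ h₃ M N
  have hfin : ∀ (f : X → ℂ) (x : X), (Function.support fun m => orb S f (4 * N) (x, m)).Finite :=
    fun f x => (Finset.Icc (-((4 * N : ℕ) : ℤ)) (4 * N : ℕ)).finite_toSet.subset fun m hm => by
      by_contra hc
      exact hm (if_neg hc)
  have key := fub μ Measure.count (C := C) h (orb_meas hS hS' hE N) (orb_meas hS hS' h₁ (4 * N))
    (orb_meas hS hS' h₂ (4 * N)) (orb_meas hS hS' h₃ (4 * N)) fun x => by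
      refine le_trans (eLpNorm_mono_enorm fun k => ?_) (H _ _ _ (hfin f₁ x) (hfin f₂ x) (hfin f₃ x) M N)
      by_cases hk : k ∈ Finset.Icc (-(N : ℤ)) N
      · refine le_of_eq ?_
        congr 1
        simp only [orb, hk, if_true, ergTHT, dH]
        refine Finset.sum_congr rfl fun n hn => ?_
        have a := Finset.mem_Icc.1 (Finset.mem_filter.1 hn).1
        have b := Finset.mem_Icc.1 hk
        rw [if_pos (Finset.mem_Icc.2 (by push_cast; omega)),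
          if_pos (Finset.mem_Icc.2 (by push_cast; omega)),
          if_pos (Finset.mem_Icc.2 (by push_cast; omega))]
        simp only [← Equiv.Perm.mul_apply, ← zpow_add]
        congr 6 <;> ring
      · simp only [orb, hk, if_false, enorm_zero, zero_le]
  rw [orb_eq hS hS' hE N h.r_pos.ne' h.r_lt_top.ne] at key
  have k2 := key.trans (mul_le_mul' (mul_le_mul' (mul_le_mul' le_rfl
    (orb_le hS hS' h₁ (4 * N) h.ne₁)) (orb_le hS hS' h₂ (4 * N) h.ne₂))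
    (orb_le hS hS' h₃ (4 * N) h.ne₃))
  set L : ℝ≥0∞ := ((2 * (4 * N) + 1 : ℕ) : ℝ≥0∞) with hL
  set L' : ℝ≥0∞ := ((2 * N + 1 : ℕ) : ℝ≥0∞) with hL'
  have l1 : L ^ (p₁⁻¹).toReal * L ^ (p₂⁻¹).toReal * L ^ (p₃⁻¹).toReal ≤
      L' ^ (r⁻¹).toReal * 4 ^ (r⁻¹).toReal := by
    rw [← ENNReal.rpow_add_of_nonneg _ _ ENNReal.toReal_nonneg ENNReal.toReal_nonneg,
      ← ENNReal.rpow_add_of_nonneg _ _ (by positivity) ENNReal.toReal_nonneg, ← holder_real h,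
      ← ENNReal.mul_rpow_of_nonneg _ _ ENNReal.toReal_nonneg]
    refine ENNReal.rpow_le_rpow ?_ ENNReal.toReal_nonneg
    rw [hL, hL']
    exact_mod_cast (by omega : 2 * (4 * N) + 1 ≤ (2 * N + 1) * 4)
  have n0 : L' ^ (r⁻¹).toReal ≠ 0 := by
    rw [hL']
    exact (ENNReal.rpow_pos (by positivity) (ENNReal.natCast_ne_top _)).ne'
  have n1 : L' ^ (r⁻¹).toReal ≠ ∞ :=
    ENNReal.rpow_ne_top_of_nonneg ENNReal.toReal_nonneg (ENNReal.natCast_ne_top _)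
  refine (ENNReal.mul_le_mul_iff_right n0 n1).1 (k2.trans ?_)
  calc _ = (L ^ (p₁⁻¹).toReal * L ^ (p₂⁻¹).toReal * L ^ (p₃⁻¹).toReal) *
        (C * eLpNorm f₁ p₁ μ * eLpNorm f₂ p₂ μ * eLpNorm f₃ p₃ μ) := by ring
    _ ≤ _ := mul_le_mul_left l1 _
    _ = _ := by ring

theorem disc_of_erg {p₁ p₂ p₃ r : ℝ≥0∞} (H : ErgBounded p₁ p₂ p₃ r) : DiscBounded p₁ p₂ p₃ r := by
  obtain ⟨C, hC, H⟩ := H
  refine ⟨C, hC, fun f₁ f₂ f₃ M N => H ℤ Measure.count _ ?_ (measurable_of_countable _) f₁ f₂ f₃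
    (measurable_of_countable _) (measurable_of_countable _) (measurable_of_countable _) M N⟩
  exact measurePreserving_sub_right Measure.count 1

theorem discFin_of_disc {p₁ p₂ p₃ r : ℝ≥0∞} (H : DiscBounded p₁ p₂ p₃ r) :
    DiscFin p₁ p₂ p₃ r := by
  obtain ⟨C, hC, H⟩ := H
  exact ⟨C, hC, fun f₁ f₂ f₃ _ _ _ M N => erg_eq_dH f₁ f₂ f₃ M N ▸ H f₁ f₂ f₃ M N⟩

end Vale.Agent.N141W
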