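import Vale.Agent.N141W.Wt

/-!
# P141: the set of tuples: models, symmetry, convexity
-/

open MeasureTheory
open scoped ENNReal SchwartzMap

namespace Vale.Agent.N141W

open Vale.Agent.P141

theorem inv_real_lt {p c : ℝ≥0∞} (h : c < p) (hc : c ≠ 0) : (p⁻¹).toReal < (c⁻¹).toReal :=
  ENNReal.toReal_strict_mono (ENNReal.inv_ne_top.2 hc) (ENNReal.inv_lt_inv.2 h)

theorem half_lt {p₁ p₂ p₃ r : ℝ≥0∞} (h : IsHolderTuple p₁ p₂ p₃ r) (a : 2 < p₁) (b : 2 < p₂)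
    (c : 2 < p₃) : 1 / 2 < r := by
  have k := holder_real h
  have a' := inv_real_lt a two_ne_zero
  have b' := inv_real_lt b two_ne_zero
  have c' := inv_real_lt c two_ne_zero
  rw [one_div, ← inv_inv r, ENNReal.inv_lt_inv,
    ← ENNReal.toReal_lt_toReal (ENNReal.inv_ne_top.2 h.r_pos.ne') ENNReal.ofNat_ne_top]
  simp only [ENNReal.toReal_inv, ENNReal.toReal_ofNat] at *
  linarith

theorem half_lt_of_one_le {r : ℝ≥0∞} (h : 1 ≤ r) : 1 / 2 < r :=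
  (ENNReal.half_lt_self one_ne_zero ENNReal.one_ne_top).trans_le h

theorem disc_of_trunc {p₁ p₂ p₃ r : ℝ≥0∞} (h : IsHolderTuple p₁ p₂ p₃ r) (hr : 1 / 2 < r)
    (H : TruncBounded p₁ p₂ p₃ r) : DiscBounded p₁ p₂ p₃ r :=
  disc_of_erg (erg_of_discFin h (discFin_of_trunc h hr H))

theorem form_of_bdd {p₀ p₁ p₂ p₃ r : ℝ≥0∞} (h : IsHolderTuple p₁ p₂ p₃ r) (e : p₀⁻¹ + r⁻¹ = 1)
    (H : BoundedAt p₁ p₂ p₃ r) : FormB p₀ p₁ p₂ p₃ :=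
  form_of_disc e (discFin_of_trunc h (half_lt_of_one_le (conj_one_le e))
    (trunc_of_bdd h (conj_one_le e) H))

theorem bdd_of_form {p₀ p₁ p₂ p₃ r : ℝ≥0∞} (h : IsHolderTuple p₁ p₂ p₃ r) (e : p₀⁻¹ + r⁻¹ = 1)
    (H : FormB p₀ p₁ p₂ p₃) : BoundedAt p₁ p₂ p₃ r :=
  bdd_of_trunc (trunc_of_erg (erg_of_discFin h (disc_of_form e h.r_lt_top.ne H)))

theorem bdd_symm {p₀ p₁ p₂ p₃ r s : ℝ≥0∞} (h : IsHolderTuple p₁ p₂ p₃ r)
    (k : IsHolderTuple p₂ p₁ p₀ s) (e : p₀⁻¹ + r⁻¹ = 1) :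
    BoundedAt p₁ p₂ p₃ r ↔ BoundedAt p₂ p₁ p₀ s := by
  have e' : p₃⁻¹ + s⁻¹ = 1 := by
    rw [← e, h.holder, k.holder]
    ring
  exact ⟨fun H => bdd_of_form k e' (form_of_bdd h e H).symm,
    fun H => bdd_of_form h e (form_of_bdd k e' H).symm⟩

theorem conj_ex {r : ℝ≥0∞} (h : 1 ≤ r) : ∃ p : ℝ≥0∞, p ≠ 0 ∧ p⁻¹ + r⁻¹ = 1 :=
  ⟨(1 - r⁻¹)⁻¹, ENNReal.inv_ne_zero.2 (ENNReal.sub_ne_top ENNReal.one_ne_top), by
    rw [inv_inv, tsub_add_cancel_of_le (ENNReal.inv_le_one.2 h)]⟩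

theorem bdd_convex : Convex ℝ {u : ℝ × ℝ × ℝ | ∃ p₁ p₂ p₃ r : ℝ≥0∞, IsHolderTuple p₁ p₂ p₃ r ∧
    1 ≤ r ∧ BoundedAt p₁ p₂ p₃ r ∧ u = ((p₁⁻¹).toReal, (p₂⁻¹).toReal, (p₃⁻¹).toReal)} := by
  rw [convex_iff_forall_pos]
  rintro _ ⟨p₁, p₂, p₃, r, h, r1, P, rfl⟩ _ ⟨q₁, q₂, q₃, s, k, s1, Q, rfl⟩ a θ ha h0 e
  obtain rfl : a = 1 - θ := by linarith
  obtain ⟨p₀, z₀, e₀⟩ := conj_ex r1
  obtain ⟨q₀, y₀, d₀⟩ := conj_ex s1
  let m : ℝ≥0∞ → ℝ≥0∞ → ℝ≥0∞ := fun p q =>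
    (ENNReal.ofReal ((1 - θ) * (p⁻¹).toReal + θ * (q⁻¹).toReal))⁻¹
  have nn : ∀ p q : ℝ≥0∞, 0 ≤ (1 - θ) * (p⁻¹).toReal + θ * (q⁻¹).toReal := fun p q => by positivity
  have em : ∀ p q, ((m p q)⁻¹).toReal = (1 - θ) * (p⁻¹).toReal + θ * (q⁻¹).toReal := fun p q => by
    rw [inv_inv, ENNReal.toReal_ofReal (nn p q)]
  have m0 : ∀ p q, m p q ≠ 0 := fun p q => ENNReal.inv_ne_zero.2 ENNReal.ofReal_ne_top
  have m1 : ∀ p q, 1 < p → 1 < q → 1 < m p q := fun p q hp hq => by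
    have a' := inv_real_lt hp one_ne_zero
    have b' := inv_real_lt hq one_ne_zero
    rw [inv_one, ENNReal.toReal_one] at a' b'
    rw [ENNReal.one_lt_inv, ENNReal.ofReal_lt_one]
    nlinarith
  have hr := holder_real h
  have hs := holder_real k
  have rp : 0 < (r⁻¹).toReal := by
    rw [ENNReal.toReal_inv]
    exact inv_pos.2 (r_pos h)
  have hM : IsHolderTuple (m p₁ q₁) (m p₂ q₂) (m p₃ q₃) (m r s) := by
    refine ⟨m1 _ _ h.one_lt_p₁ k.one_lt_p₁, m1 _ _ h.one_lt_p₂ k.one_lt_p₂,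
      m1 _ _ h.one_lt_p₃ k.one_lt_p₃, (m0 _ _).bot_lt, ?_, ?_⟩
    · rw [ENNReal.inv_lt_top, ENNReal.ofReal_pos]
      positivity
    · simp only [m, inv_inv]
      rw [← ENNReal.ofReal_add (nn _ _) (nn _ _),
        ← ENNReal.ofReal_add (add_nonneg (nn _ _) (nn _ _)) (nn _ _), hr, hs]
      congr 1
      ring
  have eM : (m p₀ q₀)⁻¹ + (m r s)⁻¹ = 1 := by
    have c := conj_real e₀
    have d := conj_real d₀
    simp only [m, inv_inv]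
    rw [← ENNReal.ofReal_add (nn _ _) (nn _ _), ← ENNReal.ofReal_one]
    congr 1
    linear_combination (1 - θ) * c + θ * d
  refine ⟨_, _, _, _, hM, conj_one_le eM, bdd_of_form hM eM (FormB.interp h0 (by linarith)
    ⟨z₀, h.ne₁, h.ne₂, h.ne₃⟩ ⟨y₀, k.ne₁, k.ne₂, k.ne₃⟩ ⟨m0 _ _, m0 _ _, m0 _ _, m0 _ _⟩
    (em _ _) (em _ _) (em _ _) (em _ _) (form_of_bdd h e₀ P) (form_of_bdd k d₀ Q)), ?_⟩
  simp only [em, Prod.smul_mk, Prod.mk_add_mk, smul_eq_mul]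

theorem holder444 : IsHolderTuple 4 4 4 (4 / 3) := by
  refine ⟨by norm_num, by norm_num, by norm_num, by simp, ENNReal.div_lt_top (by simp) (by simp), ?_⟩
  rw [ENNReal.inv_div (by simp) (by simp), div_eq_mul_inv]
  ring

end Vale.Agent.N141W
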