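import Vale.Agent.N141W.Sym

/-!
# Maximal functions on the line with respect to an arbitrary measure
-/

open MeasureTheory Set Filter Topology
open scoped ENNReal

namespace Vale.Agent.N141W

/-- the mean over an interval -/
noncomputable def avg (ν : Measure ℝ) (g : ℝ → ℝ≥0∞) (a b : ℝ) : ℝ≥0∞ :=
  (∫⁻ y in Ioo a b, g y ∂ν) / ν (Ioo a b)

/-- the maximal function -/
noncomputable def Mx (ν : Measure ℝ) (g : ℝ → ℝ≥0∞) (x : ℝ) : ℝ≥0∞ :=
  ⨆ (a : ℝ) (b : ℝ) (_ : a < x) (_ : x < b), avg ν g a b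

theorem avg_le_Mx (ν : Measure ℝ) (g : ℝ → ℝ≥0∞) {a b x : ℝ} (hx : x ∈ Ioo a b) :
    avg ν g a b ≤ Mx ν g x :=
  le_iSup_of_le a (le_iSup_of_le b (le_iSup_of_le hx.1 (le_iSup_of_le hx.2 le_rfl)))

theorem Mx_le {ν : Measure ℝ} {g : ℝ → ℝ≥0∞} {x : ℝ} {c : ℝ≥0∞}
    (h : ∀ a b, x ∈ Ioo a b → avg ν g a b ≤ c) : Mx ν g x ≤ c :=
  iSup_le fun a => iSup_le fun b => iSup_le fun h1 => iSup_le fun h2 => h a b ⟨h1, h2⟩

theorem level_eq (ν : Measure ℝ) (g : ℝ → ℝ≥0∞) (c : ℝ≥0∞) : {x | c < Mx ν g x} =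
    ⋃ p ∈ {p : ℝ × ℝ | c < avg ν g p.1 p.2}, Ioo p.1 p.2 := by
  ext x
  simp only [mem_ofPred_eq, mem_iUnion, Mx, lt_iSup_iff]
  exact ⟨fun ⟨a, b, h1, h2, h⟩ => ⟨(a, b), h, h1, h2⟩, fun ⟨p, h, h1, h2⟩ => ⟨p.1, p.2, h1, h2, h⟩⟩

theorem Mx_meas (ν : Measure ℝ) (g : ℝ → ℝ≥0∞) : Measurable (Mx ν g) :=
  measurable_of_Ioi fun c => by
    have : Mx ν g ⁻¹' Ioi c = _ := level_eq ν g c
    rw [this]
    exact (isOpen_biUnion fun _ _ => isOpen_Ioo).measurableSet

theorem cover_fin (ν κ : Measure ℝ) (s : Finset (ℝ × ℝ))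
    (h : ∀ p ∈ s, ν (Ioo p.1 p.2) ≤ κ (Ioo p.1 p.2)) :
    ν (⋃ p ∈ s, Ioo p.1 p.2) ≤ 2 * κ (⋃ p ∈ s, Ioo p.1 p.2) := by
  classical
  induction s using Finset.strongInductionOn with
  | _ s ih =>
  by_cases hr : ∃ p ∈ s, Ioo p.1 p.2 ⊆ ⋃ q ∈ s.erase p, Ioo q.1 q.2
  · obtain ⟨p, hp, hs⟩ := hr
    have e : (⋃ q ∈ s, Ioo q.1 q.2) = ⋃ q ∈ s.erase p, Ioo q.1 q.2 := by
      refine Subset.antisymm (iUnion₂_subset fun q hq => ?_)
        (biUnion_subset_biUnion_left fun q hq => Finset.mem_of_mem_erase hq)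
      rcases eq_or_ne q p with rfl | hne
      · exact hs
      · exact subset_biUnion_of_mem (u := fun q : ℝ × ℝ => Ioo q.1 q.2)
          (Finset.mem_erase.2 ⟨hne, hq⟩)
    rw [e]
    exact ih _ (Finset.erase_ssubset hp) fun q hq => h q (Finset.mem_of_mem_erase hq)
  · push Not at hr
    have mU : MeasurableSet (⋃ p ∈ s, Ioo p.1 p.2) :=
      (isOpen_biUnion fun _ _ => isOpen_Ioo).measurableSet
    refine (measure_biUnion_finset_le s _).trans ((Finset.sum_le_sum h).trans ?_)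
    simp only [← lintegral_indicator_one measurableSet_Ioo]
    rw [← lintegral_finsetSum _ fun _ _ => measurable_one.indicator measurableSet_Ioo,
      ← lintegral_indicator_const mU]
    refine lintegral_mono fun x => ?_
    simp only [indicator_apply, Pi.one_apply]
    rw [← Finset.sum_filter, Finset.sum_const, nsmul_eq_mul, mul_one]
    rcases (s.filter fun p => x ∈ Ioo p.1 p.2).eq_empty_or_nonempty with h0 | hne
    · rw [h0]
      simp
    obtain ⟨l, hl, hl'⟩ := Finset.exists_min_image _ Prod.fst hne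
    obtain ⟨m, hm, hm'⟩ := Finset.exists_max_image _ Prod.snd hne
    rw [Finset.mem_filter] at hl hm
    rw [if_pos (mem_iUnion₂.2 ⟨l, hl.1, hl.2⟩)]
    have : (s.filter fun p => x ∈ Ioo p.1 p.2) ⊆ {l, m} := by
      intro p hp
      by_contra hc
      simp only [Finset.mem_insert, Finset.mem_singleton, not_or] at hc
      refine hr p (Finset.mem_filter.1 hp).1 fun y hy => ?_
      rcases le_total y x with k | k
      · exact mem_iUnion₂.2 ⟨l, Finset.mem_erase.2 ⟨Ne.symm hc.1, hl.1⟩,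
          (hl' p hp).trans_lt hy.1, k.trans_lt hl.2.2⟩
      · exact mem_iUnion₂.2 ⟨m, Finset.mem_erase.2 ⟨Ne.symm hc.2, hm.1⟩,
          hm.2.1.trans_le k, hy.2.trans_le (hm' p hp)⟩
    exact_mod_cast (Finset.card_le_card this).trans Finset.card_le_two

theorem cover (ν κ : Measure ℝ) (T : Set (ℝ × ℝ))
    (h : ∀ p ∈ T, ν (Ioo p.1 p.2) ≤ κ (Ioo p.1 p.2)) :
    ν (⋃ p ∈ T, Ioo p.1 p.2) ≤ 2 * κ univ := by
  obtain ⟨T', hT, hc, e⟩ := TopologicalSpace.isOpen_biUnion_countable T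
    (fun p : ℝ × ℝ => Ioo p.1 p.2) fun _ _ => isOpen_Ioo
  have := hc.to_subtype
  rw [← e, biUnion_eq_iUnion, iUnion_eq_iUnion_finset, Monotone.measure_iUnion
    (s := fun t : Finset T' => ⋃ i ∈ t, Ioo (i : ℝ × ℝ).1 (i : ℝ × ℝ).2) fun a b hab =>
    biUnion_subset_biUnion_left hab]
  refine iSup_le fun F => ?_
  have k := cover_fin ν κ (F.map (Function.Embedding.subtype _)) fun p hp => by
    obtain ⟨q, -, rfl⟩ := Finset.mem_map.1 hp
    exact h _ (hT q.2)
  refine (measure_mono (iUnion₂_subset fun q hq => ?_)).trans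
    (k.trans (mul_le_mul_right (measure_mono (subset_univ _)) _))
  exact subset_biUnion_of_mem (u := fun q : ℝ × ℝ => Ioo q.1 q.2) (Finset.mem_map_of_mem _ hq)

theorem weak (ν : Measure ℝ) (g : ℝ → ℝ≥0∞) (c : ℝ≥0∞) :
    c * ν {x | c < Mx ν g x} ≤ 2 * ∫⁻ x, g x ∂ν := by
  have := cover (c • ν) (ν.withDensity g) {p : ℝ × ℝ | c < avg ν g p.1 p.2} fun p hp => by
    rw [Measure.smul_apply, smul_eq_mul, withDensity_apply _ measurableSet_Ioo]
    exact ENNReal.mul_le_of_le_div (le_of_lt hp)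
  rwa [Measure.smul_apply, smul_eq_mul, withDensity_apply _ MeasurableSet.univ,
    Measure.restrict_univ, ← level_eq] at this

theorem split (ν : Measure ℝ) (g : ℝ → ℝ≥0∞) (c : ℝ≥0∞) (x : ℝ) :
    Mx ν g x ≤ Mx ν ({y | c < g y}.indicator g) x + c := by
  refine Mx_le fun a b hx => le_trans ?_ (add_le_add (avg_le_Mx _ _ hx) le_rfl)
  unfold avg
  have : ∫⁻ y in Ioo a b, g y ∂ν ≤ ∫⁻ y in Ioo a b, {y | c < g y}.indicator g y ∂ν +
      c * ν (Ioo a b) := by
    rw [← setLIntegral_const, ← lintegral_add_right _ measurable_const]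
    refine lintegral_mono fun y => ?_
    by_cases hy : c < g y
    · rw [indicator_of_mem (show y ∈ {y | c < g y} from hy)]
      exact le_self_add
    · exact (not_lt.1 hy).trans le_add_self
  refine (ENNReal.div_le_div_right this _).trans ?_
  rw [ENNReal.add_div, mul_div_assoc]
  exact add_le_add le_rfl (mul_le_of_le_one_right' ENNReal.div_self_le_one)

theorem inner_eq {s : ℝ} (hs : 0 < s) (y : ℝ≥0∞) : ENNReal.ofReal s * ∫⁻ t in Ioi (0 : ℝ),
    (if ENNReal.ofReal t < y then ENNReal.ofReal (t ^ (s - 1)) else 0) = y ^ s := by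
  have fin : ∀ y : ℝ, 0 ≤ y → ENNReal.ofReal s * ∫⁻ t in Ioi (0 : ℝ),
      (if ENNReal.ofReal t < ENNReal.ofReal y then ENNReal.ofReal (t ^ (s - 1)) else 0) =
      ENNReal.ofReal y ^ s := by
    intro y hy
    have e : ∫⁻ t in Ioi (0 : ℝ), (if ENNReal.ofReal t < ENNReal.ofReal y then
        ENNReal.ofReal (t ^ (s - 1)) else 0) = ∫⁻ t in Ioo 0 y, ENNReal.ofReal (t ^ (s - 1)) := by
      rw [← Ioi_inter_Iio, inter_comm, ← Measure.restrict_restrict measurableSet_Iio,
        ← lintegral_indicator measurableSet_Iio]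
      refine setLIntegral_congr_fun measurableSet_Ioi fun t ht => ?_
      simp only [indicator_apply, mem_Iio, ENNReal.ofReal_lt_ofReal_iff_of_nonneg (le_of_lt ht)]
    have i : IntegrableOn (fun t : ℝ => t ^ (s - 1)) (Ioo 0 y) :=
      ((intervalIntegral.intervalIntegrable_rpow' (by linarith : -1 < s - 1)).1).mono_set
        Ioo_subset_Ioc_self
    rw [e, ← ofReal_integral_eq_lintegral_ofReal i
      ((ae_restrict_mem measurableSet_Ioo).mono fun t ht => Real.rpow_nonneg ht.1.le _),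
      ← integral_Ioc_eq_integral_Ioo, ← intervalIntegral.integral_of_le hy,
      integral_rpow (Or.inl (by linarith)), ← ENNReal.ofReal_mul hs.le, sub_add_cancel,
      Real.zero_rpow hs.ne', sub_zero, mul_div_cancel₀ _ hs.ne',
      ENNReal.ofReal_rpow_of_nonneg hy hs.le]
  rcases eq_or_ne y ∞ with rfl | hy
  · rw [ENNReal.top_rpow_of_pos hs]
    refine ENNReal.eq_top_of_forall_nnreal_le fun r => ?_
    have k := fin ((r : ℝ) ^ (1 / s)) (by positivity)
    rw [ENNReal.ofReal_rpow_of_nonneg (by positivity) hs.le, ← Real.rpow_mul r.coe_nonneg,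
      one_div_mul_cancel hs.ne', Real.rpow_one, ENNReal.ofReal_coe_nnreal] at k
    rw [← k]
    refine mul_le_mul_right (lintegral_mono fun t => ?_) _
    simp only [ENNReal.ofReal_lt_top, if_true]
    split_ifs
    exacts [le_rfl, zero_le]
  · simpa only [ENNReal.ofReal_toReal hy] using fin y.toReal ENNReal.toReal_nonneg

theorem layer_meas {F : ℝ → ℝ≥0∞} (hF : Measurable F) (s : ℝ) : Measurable fun z : ℝ × ℝ =>
    if ENNReal.ofReal z.2 < F z.1 then ENNReal.ofReal (z.2 ^ s) else 0 :=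
  Measurable.ite (measurableSet_lt measurable_snd.ennreal_ofReal (hF.comp measurable_fst))
    (measurable_snd.pow_const _).ennreal_ofReal measurable_const

/-- the strong type estimate, with one constant for all measures -/
theorem strong {q : ℝ} (hq : 1 < q) : ∃ c : ℝ≥0∞, c ≠ 0 ∧ c ≠ ∞ ∧ ∀ (ν : Measure ℝ) [SFinite ν]
    (g : ℝ → ℝ≥0∞), Measurable g → ∫⁻ x, Mx ν g x ^ q ∂ν ≤ c * ∫⁻ x, g x ^ q ∂ν := by
  have q0 : 0 < q := by linarith
  have q1 : 0 < q - 1 := by linarith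
  have z1 : ENNReal.ofReal (q - 1) ≠ 0 := by simpa using hq
  refine ⟨ENNReal.ofReal q * 4 * 2 ^ (q - 1) * (ENNReal.ofReal (q - 1))⁻¹, ?_, ?_,
    fun ν _ g hg => ?_⟩
  · exact mul_ne_zero (mul_ne_zero (mul_ne_zero (by simpa using q0) (by simp))
      (ENNReal.rpow_pos (by simp) (by simp)).ne') (ENNReal.inv_ne_zero.2 ENNReal.ofReal_ne_top)
  · exact ENNReal.mul_ne_top (ENNReal.mul_ne_top (ENNReal.mul_ne_top ENNReal.ofReal_ne_top
      (by simp)) (ENNReal.rpow_ne_top_of_nonneg q1.le (by simp))) (ENNReal.inv_ne_top.2 z1)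
  have m1 := layer_meas (Mx_meas ν g) (q - 1)
  have m2 := layer_meas (hg.const_mul 2) (q - 1 - 1)
  have m3 : Measurable fun z : ℝ × ℝ => 4 * g z.1 * (if ENNReal.ofReal z.2 < 2 * g z.1 then
      ENNReal.ofReal (z.2 ^ (q - 1 - 1)) else 0) := ((hg.comp measurable_fst).const_mul 4).mul m2
  simp only [← inner_eq q0 (Mx ν g _)]
  rw [lintegral_const_mul' _ _ ENNReal.ofReal_ne_top, lintegral_lintegral_swap m1.aemeasurable]
  have step : ∀ t ∈ Ioi (0 : ℝ), ∫⁻ x, (if ENNReal.ofReal t < Mx ν g x then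
      ENNReal.ofReal (t ^ (q - 1)) else 0) ∂ν ≤ ∫⁻ x, 4 * g x * (if ENNReal.ofReal t < 2 * g x then
      ENNReal.ofReal (t ^ (q - 1 - 1)) else 0) ∂ν := by
    intro t ht
    have t0 : 0 < t := ht
    have e2 : ENNReal.ofReal t = 2 * ENNReal.ofReal (t / 2) := by
      rw [two_mul, ← ENNReal.ofReal_add (by positivity) (by positivity), add_halves]
    have w := weak ν ({y | ENNReal.ofReal (t / 2) < g y}.indicator g) (ENNReal.ofReal (t / 2))
    have sub : {x | ENNReal.ofReal t < Mx ν g x} ⊆ {x | ENNReal.ofReal (t / 2) <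
        Mx ν ({y | ENNReal.ofReal (t / 2) < g y}.indicator g) x} := fun x hx => by
      by_contra hc
      have := (split ν g (ENNReal.ofReal (t / 2)) x).trans (add_le_add (not_lt.1 hc) le_rfl)
      rw [← two_mul, ← e2] at this
      exact absurd hx (not_lt.2 this)
    calc ∫⁻ x, (if ENNReal.ofReal t < Mx ν g x then ENNReal.ofReal (t ^ (q - 1)) else 0) ∂ν
        = ENNReal.ofReal (t ^ (q - 1)) * ν {x | ENNReal.ofReal t < Mx ν g x} := by
          rw [← lintegral_indicator_const (measurableSet_lt measurable_const (Mx_meas ν g))]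
          exact lintegral_congr fun x => by simp only [indicator_apply, mem_ofPred_eq]
      _ = 2 * ENNReal.ofReal (t ^ (q - 1 - 1)) *
          (ENNReal.ofReal (t / 2) * ν {x | ENNReal.ofReal t < Mx ν g x}) := by
          rw [show t ^ (q - 1) = t ^ (q - 1 - 1) * t by
            rw [← Real.rpow_add_one t0.ne', sub_add_cancel], ENNReal.ofReal_mul (by positivity)]
          nth_rewrite 1 [e2]
          ring
      _ ≤ 2 * ENNReal.ofReal (t ^ (q - 1 - 1)) *
          (2 * ∫⁻ x, {y | ENNReal.ofReal (t / 2) < g y}.indicator g x ∂ν) :=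
          mul_le_mul_right ((mul_le_mul_right (measure_mono sub) _).trans w) _
      _ = ∫⁻ x, 4 * g x * (if ENNReal.ofReal t < 2 * g x then
          ENNReal.ofReal (t ^ (q - 1 - 1)) else 0) ∂ν := by
          rw [← mul_assoc, ← lintegral_const_mul' _ _ (ENNReal.mul_ne_top (ENNReal.mul_ne_top
            (by simp) ENNReal.ofReal_ne_top) (by simp))]
          refine lintegral_congr fun x => ?_
          simp only [indicator_apply, mem_ofPred_eq, e2,
            ENNReal.mul_lt_mul_iff_right (show (2 : ℝ≥0∞) ≠ 0 by simp) (by simp)]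
          split_ifs
          · ring
          · simp
  refine (mul_le_mul_right (setLIntegral_mono' measurableSet_Ioi step) _).trans (le_of_eq ?_)
  rw [← lintegral_lintegral_swap m3.aemeasurable, mul_assoc, mul_assoc, mul_assoc]
  congr 1
  rw [← mul_assoc, ← mul_assoc, ← lintegral_const_mul _ (hg.pow_const _)]
  refine lintegral_congr fun x => ?_
  have m4 : Measurable fun y : ℝ => if ENNReal.ofReal y < 2 * g x then
      ENNReal.ofReal (y ^ (q - 1 - 1)) else 0 := m2.comp (measurable_prodMk_left (x := x))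
  rw [lintegral_const_mul _ m4]
  have k := inner_eq q1 (2 * g x)
  have k2 : ∫⁻ t in Ioi (0 : ℝ), (if ENNReal.ofReal t < 2 * g x then
      ENNReal.ofReal (t ^ (q - 1 - 1)) else 0) = (ENNReal.ofReal (q - 1))⁻¹ * (2 * g x) ^ (q - 1) := by
    rw [← k, ← mul_assoc, ENNReal.inv_mul_cancel z1 ENNReal.ofReal_ne_top, one_mul]
  have k3 : g x ^ q = g x * g x ^ (q - 1) := by
    nth_rewrite 2 [← ENNReal.rpow_one (g x)]
    rw [← ENNReal.rpow_add_of_nonneg _ _ zero_le_one q1.le, add_sub_cancel]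
  refine (congrArg _ k2).trans ?_
  rw [ENNReal.mul_rpow_of_nonneg _ _ q1.le, k3]
  ring

end Vale.Agent.N141W
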