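import Vale.Agent.N141W.Pv

/-!
# Transference, V: from `T` to its truncations (`r ≥ 1`), by averaging over modulations
-/

open MeasureTheory Set Filter Topology
open scoped ENNReal SchwartzMap

namespace Vale.Agent.N141W

open Vale.Agent.P141

theorem pr_norm {p₁ p₂ p₃ r : ℝ≥0∞} (h : IsHolderTuple p₁ p₂ p₃ r) (f₁ f₂ f₃ : 𝓢(ℝ, ℂ)) (t : ℝ) :
    eLpNorm (fun x => pr f₁ f₂ f₃ x t) r volume ≤
      eLpNorm f₁ p₁ volume * eLpNorm f₂ p₂ volume * eLpNorm f₃ p₃ volume := by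
  have m : ∀ (f : 𝓢(ℝ, ℂ)) (a : ℝ), AEStronglyMeasurable (fun x => f (x - a)) volume := fun f a =>
    (f.continuous.comp (continuous_sub_right a)).aestronglyMeasurable
  have e : ∀ (f : 𝓢(ℝ, ℂ)) (p : ℝ≥0∞) (a : ℝ), eLpNorm (fun x => f (x - a)) p volume =
      eLpNorm f p volume := fun f p a => eLpNorm_comp_measurePreserving
    f.continuous.aestronglyMeasurable (measurePreserving_sub_right _ a)
  refine (holder3 h.holder (m _ _) (m _ _) (m _ _)).trans (le_of_eq ?_)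
  rw [e, e, e]

/-- the modulated transform -/
noncomputable def Gm (F : ℝ → ℂ) (η : ℝ) : ℂ :=
  ∫ t in Ioi (0 : ℝ), (F t * ee η t - F (-t) * ee η (-t)) / (t : ℂ)

theorem sinc_avg {F : ℝ → ℂ} (hF : Differentiable ℝ F) (hi : Integrable F) {a : ℝ} (ha : 0 < a) :
    2 * ∫ t in Ioi (0 : ℝ), (F t - F (-t)) / (t : ℂ) * Real.sinc (t / a) =
      ∫ ξ in Ioc (-1 : ℝ) 1, Gm F (ξ / a) := by
  have hD := odd_int hF hi
  have hc := hF.continuous
  have e1 : ∀ ξ t : ℝ, ee (ξ / a) t = ee ξ (t / a) := fun ξ t => by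
    unfold ee
    congr 3
    ring
  have c1 : ∀ s : ℝ, Continuous fun ξ => ee ξ s := fun s => ee_cont.comp (Continuous.prodMk_left s)
  have hI : Integrable (Function.uncurry fun ξ t : ℝ =>
      (F t * ee (ξ / a) t - F (-t) * ee (ξ / a) (-t)) / (t : ℂ))
      ((volume.restrict (Ioc (-1 : ℝ) 1)).prod (volume.restrict (Ioi (0 : ℝ)))) := by
    have b : Integrable (fun t : ℝ => ‖(F t - F (-t)) / (t : ℂ)‖ + ‖F (-t)‖ * (2 / a))
        (volume.restrict (Ioi (0 : ℝ))) :=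
      hD.norm.add (hi.comp_neg.norm.mul_const _).integrableOn
    refine Integrable.mono' (b.comp_snd (volume.restrict (Ioc (-1 : ℝ) 1))) ?_ ?_
    · have u : Continuous fun z : ℝ × ℝ => F z.2 * ee (z.1 / a) z.2 - F (-z.2) * ee (z.1 / a) (-z.2) :=
        ((hc.comp continuous_snd).mul (ee_cont.comp ((continuous_fst.div_const a).prodMk
          continuous_snd))).sub ((hc.comp continuous_snd.neg).mul (ee_cont.comp
            ((continuous_fst.div_const a).prodMk continuous_snd.neg)))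
      exact (u.measurable.div (Complex.measurable_ofReal.comp measurable_snd)).aestronglyMeasurable
    · rw [Measure.prod_restrict]
      filter_upwards [ae_restrict_mem (measurableSet_Ioc.prod measurableSet_Ioi)] with z hz
      obtain ⟨ξ, t⟩ := z
      have t0 : 0 < t := hz.2
      have x1 : |ξ| ≤ 1 := abs_le.2 ⟨hz.1.1.le, hz.1.2⟩
      have e : (F t * ee (ξ / a) t - F (-t) * ee (ξ / a) (-t)) / (t : ℂ) =
          (F t - F (-t)) / (t : ℂ) * ee (ξ / a) t +
            F (-t) * ((ee (ξ / a) t - ee (ξ / a) (-t)) / (t : ℂ)) := by ring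
      simp only [Function.uncurry]
      rw [e]
      refine (norm_add_le _ _).trans (add_le_add (by rw [norm_mul, ee_norm, mul_one]) ?_)
      rw [norm_mul]
      refine mul_le_mul_of_nonneg_left ?_ (norm_nonneg _)
      rw [norm_div, Complex.norm_real, Real.norm_eq_abs, div_le_iff₀ (abs_pos.2 t0.ne')]
      refine (ee_sub _ _).trans (mul_le_mul_of_nonneg_right ?_ (abs_nonneg _))
      rw [abs_div, abs_of_pos ha, ← mul_div_assoc]
      exact div_le_div_of_nonneg_right (by linarith) ha.le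
  unfold Gm
  rw [integral_integral_swap hI, ← integral_const_mul]
  refine setIntegral_congr_fun measurableSet_Ioi fun t ht => ?_
  have t0 : 0 < t := ht
  simp only [e1]
  rw [integral_div, integral_sub (((c1 _).const_mul _).integrableOn_Ioc)
    (((c1 _).const_mul _).integrableOn_Ioc), integral_const_mul, integral_const_mul,
    ee_avg (div_pos t0 ha).ne', ee_avg (div_neg_of_neg_of_pos (neg_lt_zero.2 t0) ha).ne,
    neg_div, Real.sinc_neg]
  ring

theorem Gm_norm (f₁ f₂ f₃ : 𝓢(ℝ, ℂ)) (η : ℝ) : ∃ g : 𝓢(ℝ, ℂ), (∀ y, ‖g y‖ = ‖f₁ y‖) ∧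
    ∀ x, ‖Gm (pr f₁ f₂ f₃ x) η‖ = ‖THT g f₂ f₃ x‖ := by
  have e : ∀ y, SchwartzMap.smulLeftCLM ℂ (ee (-η)) f₁ y = ee (-η) y * f₁ y := fun y =>
    SchwartzMap.smulLeftCLM_apply_apply (ee_temp _) f₁ y
  refine ⟨SchwartzMap.smulLeftCLM ℂ (ee (-η)) f₁, fun y => by rw [e, norm_mul, ee_norm, one_mul],
    fun x => ?_⟩
  have e2 : ∀ t, pr (SchwartzMap.smulLeftCLM ℂ (ee (-η)) f₁) f₂ f₃ x t =
      ee (-η) x * (pr f₁ f₂ f₃ x t * ee η t) := fun t => by
    have : ee (-η) (x - t) = ee (-η) x * ee η t := by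
      unfold ee
      rw [← Complex.exp_add]
      congr 1
      push_cast
      ring
    unfold pr
    rw [e, this]
    ring
  rw [tht_eq]
  simp only [e2, ← mul_sub, mul_div_assoc]
  rw [integral_const_mul, norm_mul, ee_norm, one_mul]
  rfl

theorem Gm_meas (f₁ f₂ f₃ : 𝓢(ℝ, ℂ)) (a : ℝ) :
    Measurable fun z : ℝ × ℝ => Gm (pr f₁ f₂ f₃ z.1) (z.2 / a) := by
  have c := pr_cont f₁.continuous f₂.continuous f₃.continuous
  have u : Continuous fun w : (ℝ × ℝ) × ℝ => pr f₁ f₂ f₃ w.1.1 w.2 * ee (w.1.2 / a) w.2 -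
      pr f₁ f₂ f₃ w.1.1 (-w.2) * ee (w.1.2 / a) (-w.2) :=
    ((c.comp (continuous_fst.fst.prodMk continuous_snd)).mul (ee_cont.comp
      ((continuous_fst.snd.div_const a).prodMk continuous_snd))).sub
      ((c.comp (continuous_fst.fst.prodMk continuous_snd.neg)).mul (ee_cont.comp
        ((continuous_fst.snd.div_const a).prodMk continuous_snd.neg)))
  exact (StronglyMeasurable.integral_prod_right' (ν := volume.restrict (Ioi (0 : ℝ)))
    (u.measurable.div (Complex.measurable_ofReal.comp measurable_snd)).stronglyMeasurable).measurable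

/-- the smooth truncation -/
noncomputable def sm (f₁ f₂ f₃ : ℝ → ℂ) (a x : ℝ) : ℂ :=
  ∫ t in Ioi (0 : ℝ), (pr f₁ f₂ f₃ x t - pr f₁ f₂ f₃ x (-t)) / (t : ℂ) * Real.sinc (t / a)

theorem odd_cont (f₁ f₂ f₃ : 𝓢(ℝ, ℂ)) :
    Continuous fun z : ℝ × ℝ => pr f₁ f₂ f₃ z.1 z.2 - pr f₁ f₂ f₃ z.1 (-z.2) :=
  (pr_cont f₁.continuous f₂.continuous f₃.continuous).sub ((pr_cont f₁.continuous f₂.continuous
    f₃.continuous).comp (continuous_fst.prodMk continuous_snd.neg))

theorem sm_meas (f₁ f₂ f₃ : 𝓢(ℝ, ℂ)) (a : ℝ) : Measurable (sm f₁ f₂ f₃ a) :=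
  (StronglyMeasurable.integral_prod_right' (ν := volume.restrict (Ioi (0 : ℝ)))
    (((odd_cont f₁ f₂ f₃).measurable.div (Complex.measurable_ofReal.comp measurable_snd)).mul
      (Complex.measurable_ofReal.comp (Real.continuous_sinc.measurable.comp
        (measurable_snd.div_const a)))).stronglyMeasurable).measurable

theorem sm_bd {p₁ p₂ p₃ r C : ℝ≥0∞} (h : IsHolderTuple p₁ p₂ p₃ r) (h1 : 1 ≤ r)
    (H : ∀ f₁ f₂ f₃ : 𝓢(ℝ, ℂ), eLpNorm (THT f₁ f₂ f₃) r volume ≤
      C * eLpNorm f₁ p₁ volume * eLpNorm f₂ p₂ volume * eLpNorm f₃ p₃ volume)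
    (f₁ f₂ f₃ : 𝓢(ℝ, ℂ)) {a : ℝ} (ha : 0 < a) : eLpNorm (sm f₁ f₂ f₃ a) r volume ≤
      2 * (C * eLpNorm f₁ p₁ volume * eLpNorm f₂ p₂ volume * eLpNorm f₃ p₃ volume) := by
  have := mink (μ := volume) (ν := volume.restrict (Ioc (-1 : ℝ) 1)) (S := sm f₁ f₂ f₃ a)
    (B := C * eLpNorm f₁ p₁ volume * eLpNorm f₂ p₂ volume * eLpNorm f₃ p₃ volume) h1
    h.r_lt_top.ne (Gm_meas f₁ f₂ f₃ a) (fun x => by
      refine le_trans ?_ (enorm_integral_le_lintegral_enorm _)
      simp only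
      rw [← sinc_avg (pr_diff f₁ f₂ f₃ x) (pr_int f₁ f₂ f₃ x) ha, enorm_le_iff_norm_le, norm_mul]
      exact le_mul_of_one_le_left (norm_nonneg _) (by simp)) fun ξ => by
      obtain ⟨g, e₁, e₂⟩ := Gm_norm f₁ f₂ f₃ (ξ / a)
      rw [eLpNorm_congr_norm_ae (ae_of_all _ e₂), ← eLpNorm_congr_norm_ae (ae_of_all _ e₁)]
      exact H g f₂ f₃
  refine this.trans (le_of_eq ?_)
  congr 1
  simp
  norm_num

/-- the integrable majorant -/
noncomputable def κ (a t : ℝ) : ℝ := 2 / a * (1 + (t / a) ^ 2)⁻¹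

theorem κ_int {a : ℝ} (ha : 0 < a) : ∫⁻ t, ENNReal.ofReal (κ a t) = ENNReal.ofReal (2 * Real.pi) := by
  have i : Integrable (κ a) :=
    (integrable_inv_one_add_sq.comp_div ha.ne').const_mul _
  rw [← ofReal_integral_eq_lintegral_ofReal i (ae_of_all _ fun t => by unfold κ; positivity)]
  congr 1
  unfold κ
  rw [integral_const_mul, Measure.integral_comp_div (fun t : ℝ => (1 + t ^ 2)⁻¹),
    integral_univ_inv_one_add_sq, abs_of_pos ha, smul_eq_mul]
  field_simp

theorem κ_le {a t : ℝ} (ha : 0 < a) (ht : 0 < t) :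
    |(if t < a then 1 else 0) - Real.sinc (t / a)| ≤ κ a t * t := by
  have hs : 0 < t / a := div_pos ht ha
  have e : κ a t * t = 2 * (t / a) / (1 + (t / a) ^ 2) := by
    unfold κ
    field_simp
  rw [e, le_div_iff₀ (by positivity)]
  split_ifs with h
  · have s1 : t / a < 1 := (div_lt_one ha).2 h
    have a1 := Real.sin_gt_sub_cube hs
    have a2 : 1 - Real.sinc (t / a) ≤ t / a := by
      rw [Real.sinc_of_ne_zero hs.ne', sub_le_comm, le_div_iff₀ hs]
      nlinarith [pow_pos hs 2, mul_pos (pow_pos hs 2) (sub_pos.2 s1)]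
    rw [abs_of_nonneg (sub_nonneg.2 (Real.sinc_le_one _))]
    have a3 : 1 + (t / a) ^ 2 ≤ 2 := by nlinarith
    calc _ ≤ t / a * 2 := mul_le_mul a2 a3 (by positivity) hs.le
      _ = _ := mul_comm _ _
  · have s1 : 1 ≤ t / a := (one_le_div ha).2 (not_lt.1 h)
    rw [zero_sub, abs_neg, Real.sinc_of_ne_zero hs.ne', abs_div, abs_of_pos hs, div_mul_eq_mul_div,
      div_le_iff₀ hs]
    have a1 := Real.abs_sin_le_one (t / a)
    nlinarith [mul_le_mul_of_nonneg_right a1 (by positivity : 0 ≤ 1 + (t / a) ^ 2)]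

theorem trunc_of_bdd {p₁ p₂ p₃ r : ℝ≥0∞} (h : IsHolderTuple p₁ p₂ p₃ r) (h1 : 1 ≤ r)
    (H : BoundedAt p₁ p₂ p₃ r) : TruncBounded p₁ p₂ p₃ r := by
  obtain ⟨C, hC, H⟩ := H
  refine ⟨4 * C + 4 * ENNReal.ofReal (2 * Real.pi), ENNReal.add_lt_top.2
    ⟨ENNReal.mul_lt_top (by simp) hC, ENNReal.mul_lt_top (by simp) ENNReal.ofReal_lt_top⟩,
    fun f₁ f₂ f₃ ε R hε hR => ?_⟩
  have hR0 := hε.trans hR
  have mT := (trunc_meas f₁.continuous f₂.continuous f₃.continuous ε R).aestronglyMeasurable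
    (μ := volume)
  have m₁ := (sm_meas f₁ f₂ f₃ R).aestronglyMeasurable (μ := volume)
  have m₂ := (sm_meas f₁ f₂ f₃ ε).aestronglyMeasurable (μ := volume)
  have mκ : Measurable fun t => ENNReal.ofReal (κ R t) + ENNReal.ofReal (κ ε t) := by
    unfold κ
    fun_prop
  have hE := mink (μ := volume) (ν := volume.withDensity fun t =>
      ENNReal.ofReal (κ R t) + ENNReal.ofReal (κ ε t))
    (S := truncTHT f₁ f₂ f₃ ε R - (sm f₁ f₂ f₃ R - sm f₁ f₂ f₃ ε))
    (B := 2 * (eLpNorm f₁ p₁ volume * eLpNorm f₂ p₂ volume * eLpNorm f₃ p₃ volume)) h1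
    h.r_lt_top.ne (odd_cont f₁ f₂ f₃).measurable (fun x => by
      have hD := odd_int (pr_diff f₁ f₂ f₃ x) (pr_int f₁ f₂ f₃ x)
      have hs : ∀ a : ℝ, IntegrableOn (fun t : ℝ => (pr f₁ f₂ f₃ x t - pr f₁ f₂ f₃ x (-t)) /
          (t : ℂ) * Real.sinc (t / a)) (Ioi 0) := fun a =>
        hD.mul_bdd (c := 1) (Complex.continuous_ofReal.comp (Real.continuous_sinc.comp
          (continuous_id.div_const a))).aestronglyMeasurable (ae_of_all _ fun t => by
            rw [Complex.norm_real]; exact Real.abs_sinc_le_one _)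
      have e : truncTHT f₁ f₂ f₃ ε R x = ∫ t in Ioi (0 : ℝ), (Ioo ε R).indicator
          (fun t : ℝ => (pr f₁ f₂ f₃ x t - pr f₁ f₂ f₃ x (-t)) / (t : ℂ)) t := by
        rw [integral_indicator measurableSet_Ioo, Measure.restrict_restrict measurableSet_Ioo,
          inter_eq_left.2 (show Ioo ε R ⊆ Ioi 0 from fun t ht => hε.trans ht.1)]
        exact trunc_odd (pr_diff f₁ f₂ f₃ x).continuous hε hR.le
      have mo : Measurable fun t => ‖pr f₁ f₂ f₃ x t - pr f₁ f₂ f₃ x (-t)‖ₑ :=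
        ((odd_cont f₁ f₂ f₃).measurable.comp (measurable_prodMk_left (x := x))).enorm
      rw [Pi.sub_apply, Pi.sub_apply, e, sm, sm, ← integral_sub' (hs R) (hs ε),
        ← integral_sub' (hD.indicator measurableSet_Ioo) ((hs R).sub (hs ε)),
        lintegral_withDensity_eq_lintegral_mul _ mκ mo]
      refine (enorm_integral_le_lintegral_enorm _).trans (le_trans (lintegral_mono_ae ?_)
        (setLIntegral_le_lintegral (Ioi 0) _))
      filter_upwards [ae_restrict_mem measurableSet_Ioi,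
        ae_restrict_of_ae (Measure.ae_ne volume ε)] with t ht hne
      have t0 : 0 < t := ht
      have k0 : ∀ a : ℝ, 0 < a → 0 ≤ κ a t := fun a ha => by unfold κ; positivity
      have e2 : (Ioo ε R).indicator
          (fun t : ℝ => (pr f₁ f₂ f₃ x t - pr f₁ f₂ f₃ x (-t)) / (t : ℂ)) t -
          ((pr f₁ f₂ f₃ x t - pr f₁ f₂ f₃ x (-t)) / (t : ℂ) * Real.sinc (t / R) -
            (pr f₁ f₂ f₃ x t - pr f₁ f₂ f₃ x (-t)) / (t : ℂ) * Real.sinc (t / ε)) =
          (((((if t < R then 1 else 0) - Real.sinc (t / R)) -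
            ((if t < ε then 1 else 0) - Real.sinc (t / ε))) / t : ℝ) : ℂ) *
            (pr f₁ f₂ f₃ x t - pr f₁ f₂ f₃ x (-t)) := by
        by_cases a : t < ε
        · rw [indicator_of_notMem (fun k => lt_asymm a k.1), if_pos a, if_pos (a.trans hR)]
          push_cast
          ring
        · by_cases b : t < R
          · rw [indicator_of_mem (show t ∈ Ioo ε R from ⟨lt_of_le_of_ne (not_lt.1 a) hne.symm, b⟩),
              if_pos b, if_neg a]
            push_cast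
            ring
          · rw [indicator_of_notMem (fun k => b k.2), if_neg a, if_neg b]
            push_cast
            ring
      simp only [Pi.sub_apply, Pi.mul_apply]
      rw [e2, enorm_mul, ← ENNReal.ofReal_add (k0 R hR0) (k0 ε hε), ← ofReal_norm,
        Complex.norm_real, Real.norm_eq_abs]
      refine mul_le_mul_left (ENNReal.ofReal_le_ofReal ?_) _
      rw [abs_div, abs_of_pos t0, div_le_iff₀ t0, add_mul]
      exact (abs_sub _ _).trans (add_le_add (κ_le hR0 t0) (κ_le hε t0))) fun t => by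
      have c := pr_cont f₁.continuous f₂.continuous f₃.continuous
      rw [two_mul]
      exact (eLpNorm_sub_le (c.comp (Continuous.prodMk_left t)).aestronglyMeasurable
        (c.comp (Continuous.prodMk_left (-t))).aestronglyMeasurable h1).trans
        (add_le_add (pr_norm h f₁ f₂ f₃ t) (pr_norm h f₁ f₂ f₃ (-t)))
  rw [withDensity_apply _ MeasurableSet.univ, Measure.restrict_univ,
    lintegral_add_left (by unfold κ; fun_prop), κ_int hR0, κ_int hε] at hE
  calc eLpNorm (truncTHT f₁ f₂ f₃ ε R) r volume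
      = eLpNorm ((truncTHT f₁ f₂ f₃ ε R - (sm f₁ f₂ f₃ R - sm f₁ f₂ f₃ ε)) +
          (sm f₁ f₂ f₃ R - sm f₁ f₂ f₃ ε)) r volume := by rw [sub_add_cancel]
    _ ≤ _ := eLpNorm_add_le (mT.sub (m₁.sub m₂)) (m₁.sub m₂) h1
    _ ≤ _ := add_le_add hE ((eLpNorm_sub_le m₁ m₂ h1).trans
        (add_le_add (sm_bd h h1 H f₁ f₂ f₃ hR0) (sm_bd h h1 H f₁ f₂ f₃ hε)))
    _ = _ := by ring

end Vale.Agent.N141W
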