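import Vale.Agent.N141W.Max
import Mathlib.MeasureTheory.Constructions.Polish.Basic

/-!
# Muckenhoupt's theorem (Lerner's proof), the Rubio de Francia iteration, and the
Fefferman–Stein inequality on the line
-/

open MeasureTheory Set Filter Topology
open scoped ENNReal

namespace Vale.Agent.N141W

/-- positive and finite almost everywhere -/
def Pos (W : ℝ → ℝ≥0∞) : Prop := ∀ᵐ x, W x ≠ 0 ∧ W x ≠ ∞

/-- the `A_q` condition with constant `K` -/
def ApK (q : ℝ) (K : ℝ≥0∞) (W : ℝ → ℝ≥0∞) : Prop :=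
  ∀ a b : ℝ, a < b → avg volume W a b * avg volume (fun x => W x ^ (-1 / (q - 1))) a b ^ (q - 1) ≤ K

theorem rpow_ne {x : ℝ≥0∞} (h : x ≠ 0 ∧ x ≠ ∞) (s : ℝ) : x ^ s ≠ 0 ∧ x ^ s ≠ ∞ := by
  simp [h.1, h.2]

theorem Pos.rpow {W : ℝ → ℝ≥0∞} (h : Pos W) (s : ℝ) : Pos fun x => W x ^ s :=
  h.mono fun _ hx => rpow_ne hx s

theorem vol_ne {a b : ℝ} (h : a < b) : volume (Ioo a b) ≠ 0 ∧ volume (Ioo a b) ≠ ∞ := by
  simpa using h

theorem Pos.int {W : ℝ → ℝ≥0∞} (h : Pos W) (hm : Measurable W) {a b : ℝ} (hab : a < b) :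
    ∫⁻ x in Ioo a b, W x ≠ 0 := by
  intro h0
  have k : ∀ᵐ x ∂volume.restrict (Ioo a b), False := by
    filter_upwards [(lintegral_eq_zero_iff hm).1 h0, ae_restrict_of_ae h] with x h1 h2
    exact h2.1 h1
  rw [eventually_false_iff_eq_bot, ae_eq_bot, Measure.restrict_eq_zero] at k
  exact (vol_ne hab).1 k

theorem avg_wd {W f : ℝ → ℝ≥0∞} (h : Pos W) (hm : Measurable W) (hf : Measurable f) (a b : ℝ) :
    avg (volume.withDensity W) (fun y => f y * (W y)⁻¹) a b =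
      (∫⁻ y in Ioo a b, f y) / ∫⁻ y in Ioo a b, W y := by
  unfold avg
  rw [withDensity_apply _ measurableSet_Ioo, setLIntegral_withDensity_eq_setLIntegral_mul _ hm
    (g := fun y => f y * (W y)⁻¹) (hf.mul hm.inv) measurableSet_Ioo]
  congr 1
  refine lintegral_congr_ae ((ae_restrict_of_ae h).mono fun y hy => ?_)
  simp only [Pi.mul_apply]
  rw [mul_left_comm, ENNReal.mul_inv_cancel hy.1 hy.2, mul_one]

theorem lerner {q : ℝ} (hq : 1 < q) {K : ℝ≥0∞} (hK : K ≠ ∞) {W f : ℝ → ℝ≥0∞} (h : Pos W)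
    (hm : Measurable W) (hA : ApK q K W) (hf : Measurable f) (x : ℝ) :
    Mx volume f x ≤ (K * Mx (volume.withDensity W) (fun y =>
      Mx (volume.withDensity fun z => W z ^ (-1 / (q - 1)))
        (fun z => f z * (W z ^ (-1 / (q - 1)))⁻¹) y ^ (q - 1) * (W y)⁻¹) x) ^ (q - 1)⁻¹ := by
  have q1 : 0 < q - 1 := by linarith
  refine Mx_le fun a b hx => (ENNReal.le_rpow_inv_iff q1).2 (le_trans ?_
    (mul_le_mul_right (avg_le_Mx _ _ hx) K))
  have hab := hx.1.trans hx.2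
  have hσ := h.rpow (-1 / (q - 1))
  have mσ := hm.pow_const (-1 / (q - 1))
  obtain ⟨L0, Lt⟩ := vol_ne hab
  have w0 := h.int hm hab
  have s0 := hσ.int mσ hab
  have hA := hA a b hab
  rw [avg_wd h hm ((Mx_meas _ _).pow_const _)]
  have lo : ((∫⁻ y in Ioo a b, f y) / ∫⁻ y in Ioo a b, W y ^ (-1 / (q - 1))) ^ (q - 1) *
      volume (Ioo a b) ≤ ∫⁻ y in Ioo a b, Mx (volume.withDensity fun z => W z ^ (-1 / (q - 1)))
        (fun z => f z * (W z ^ (-1 / (q - 1)))⁻¹) y ^ (q - 1) := by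
    rw [← setLIntegral_const, ← avg_wd hσ mσ hf]
    exact setLIntegral_mono' measurableSet_Ioo fun y hy =>
      ENNReal.rpow_le_rpow (avg_le_Mx _ _ hy) q1.le
  refine le_trans ?_ (mul_le_mul_right (ENNReal.div_le_div_right lo _) K)
  unfold avg at hA ⊢
  generalize volume (Ioo a b) = L at *
  generalize (∫⁻ y in Ioo a b, W y) = w at *
  generalize (∫⁻ y in Ioo a b, W y ^ (-1 / (q - 1))) = s at *
  generalize (∫⁻ y in Ioo a b, f y) = F at *
  have u0 : w / L ≠ 0 := ENNReal.div_ne_zero.2 ⟨w0, Lt⟩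
  have v0 : (s / L) ^ (q - 1) ≠ 0 :=
    (ENNReal.rpow_pos_of_nonneg (ENNReal.div_ne_zero.2 ⟨s0, Lt⟩).bot_lt q1.le).ne'
  have wt : w ≠ ∞ := by
    rintro rfl
    rw [ENNReal.top_div_of_ne_top Lt, ENNReal.top_mul v0] at hA
    exact hK (top_le_iff.1 hA)
  have st : s ≠ ∞ := by
    rintro rfl
    rw [ENNReal.top_div_of_ne_top Lt, ENNReal.top_rpow_of_pos q1, ENNReal.mul_top u0] at hA
    exact hK (top_le_iff.1 hA)
  calc (F / L) ^ (q - 1) = (F / s * (s / L)) ^ (q - 1) := by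
        rw [div_eq_mul_inv s, ← mul_assoc, ENNReal.div_mul_cancel s0 st, div_eq_mul_inv]
    _ = (F / s) ^ (q - 1) * (s / L) ^ (q - 1) * ((w * w⁻¹) * (L * L⁻¹)) := by
        rw [ENNReal.mul_rpow_of_nonneg _ _ q1.le, ENNReal.mul_inv_cancel w0 wt,
          ENNReal.mul_inv_cancel L0 Lt, mul_one, mul_one]
    _ = (w / L * (s / L) ^ (q - 1)) * ((F / s) ^ (q - 1) * L / w) := by
        simp only [div_eq_mul_inv]
        ring
    _ ≤ _ := mul_le_mul_left hA _

/-- **Muckenhoupt's theorem** -/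
theorem muck {q : ℝ} (hq : 1 < q) {K : ℝ≥0∞} (hK : K ≠ ∞) : ∃ c : ℝ≥0∞, c ≠ ∞ ∧
    ∀ W : ℝ → ℝ≥0∞, Pos W → Measurable W → ApK q K W → ∀ f : ℝ → ℝ≥0∞, Measurable f →
      ∫⁻ x, Mx volume f x ^ q * W x ≤ c * ∫⁻ x, f x ^ q * W x := by
  have q0 : 0 < q := by linarith
  have q1 : 0 < q - 1 := by linarith
  have hq' : 1 < (q - 1)⁻¹ * q := by
    rw [← div_eq_inv_mul, one_lt_div q1]
    linarith
  obtain ⟨c₁, -, t₁, H₁⟩ := strong hq
  obtain ⟨c₂, -, t₂, H₂⟩ := strong hq'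
  refine ⟨K ^ ((q - 1)⁻¹ * q) * c₂ * c₁, ENNReal.mul_ne_top (ENNReal.mul_ne_top
    (ENNReal.rpow_ne_top_of_nonneg (by positivity) hK) t₂) t₁, fun W h hm hA f hf => ?_⟩
  have hσ := h.rpow (-1 / (q - 1))
  have mσ := hm.pow_const (-1 / (q - 1))
  set g : ℝ → ℝ≥0∞ := fun z => f z * (W z ^ (-1 / (q - 1)))⁻¹ with hg
  have mg : Measurable g := hf.mul mσ.inv
  set u : ℝ → ℝ≥0∞ := fun y => Mx (volume.withDensity fun z => W z ^ (-1 / (q - 1))) g y ^ (q - 1) *
    (W y)⁻¹ with hu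
  have mu : Measurable u := ((Mx_meas _ _).pow_const _).mul hm.inv
  have k₁ := H₁ (volume.withDensity fun z => W z ^ (-1 / (q - 1))) g mg
  have k₂ := H₂ (volume.withDensity W) u mu
  rw [lintegral_withDensity_eq_lintegral_mul _ mσ ((Mx_meas _ _).pow_const _),
    lintegral_withDensity_eq_lintegral_mul _ mσ (mg.pow_const _)] at k₁
  rw [lintegral_withDensity_eq_lintegral_mul _ hm ((Mx_meas _ _).pow_const _),
    lintegral_withDensity_eq_lintegral_mul _ hm (mu.pow_const _)] at k₂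
  calc ∫⁻ x, Mx volume f x ^ q * W x
      ≤ ∫⁻ x, K ^ ((q - 1)⁻¹ * q) * (W * fun x =>
          Mx (volume.withDensity W) u x ^ ((q - 1)⁻¹ * q)) x := by
        refine lintegral_mono fun x => ?_
        refine (mul_le_mul_left (ENNReal.rpow_le_rpow (lerner hq hK h hm hA hf x) q0.le) _).trans
          (le_of_eq ?_)
        rw [← ENNReal.rpow_mul, ENNReal.mul_rpow_of_nonneg _ _ (by positivity), Pi.mul_apply]
        ring
    _ = _ := lintegral_const_mul _ (hm.mul ((Mx_meas _ _).pow_const _))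
    _ ≤ _ := mul_le_mul_right k₂ _
    _ = K ^ ((q - 1)⁻¹ * q) * (c₂ * ∫⁻ x, ((fun z => W z ^ (-1 / (q - 1))) * fun x =>
          Mx (volume.withDensity fun z => W z ^ (-1 / (q - 1))) g x ^ q) x) := by
        congr 2
        refine lintegral_congr_ae (h.mono fun x hx => ?_)
        simp only [Pi.mul_apply, hu]
        rw [ENNReal.mul_rpow_of_nonneg _ _ (by positivity), ← ENNReal.rpow_mul,
          mul_inv_cancel_left₀ q1.ne', mul_left_comm, mul_comm, ← ENNReal.rpow_neg_one,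
          ← ENNReal.rpow_mul]
        congr 1
        nth_rewrite 1 [← ENNReal.rpow_one (W x)]
        rw [← ENNReal.rpow_add _ _ hx.1 hx.2]
        congr 1
        field_simp
        ring
    _ ≤ K ^ ((q - 1)⁻¹ * q) * (c₂ * (c₁ * _)) := mul_le_mul_right (mul_le_mul_right k₁ _) _
    _ = _ := by
        rw [mul_assoc, mul_assoc]
        congr 3
        refine lintegral_congr_ae (h.mono fun x hx => ?_)
        simp only [Pi.mul_apply, hg]
        rw [ENNReal.mul_rpow_of_nonneg _ _ q0.le, mul_left_comm, ← ENNReal.rpow_neg_one,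
          ← ENNReal.rpow_mul, ← ENNReal.rpow_mul, ← ENNReal.rpow_add _ _ hx.1 hx.2]
        congr 1
        nth_rewrite 2 [← ENNReal.rpow_one (W x)]
        congr 1
        field_simp
        ring

theorem jensen {α : Type*} [MeasurableSpace α] (μ : Measure α) {f : α → ℝ≥0∞}
    (hf : Measurable f) {θ : ℝ} (h0 : 0 ≤ θ) (h1 : θ ≤ 1) :
    ∫⁻ x, f x ^ θ ∂μ ≤ (∫⁻ x, f x ∂μ) ^ θ * μ univ ^ (1 - θ) := by
  have := ENNReal.lintegral_mul_norm_pow_le (μ := μ) (g := fun _ => 1) hf.aemeasurable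
    aemeasurable_const h0 (sub_nonneg.2 h1) (add_sub_cancel _ _)
  simpa using this

theorem avg_jensen {f : ℝ → ℝ≥0∞} (hf : Measurable f) {θ : ℝ} (h0 : 0 ≤ θ) (h1 : θ ≤ 1) {a b : ℝ}
    (hab : a < b) : avg volume (fun x => f x ^ θ) a b ≤ avg volume f a b ^ θ := by
  obtain ⟨L0, Lt⟩ := vol_ne hab
  unfold avg
  refine (ENNReal.div_le_div_right (jensen _ hf h0 h1) _).trans (le_of_eq ?_)
  rw [Measure.restrict_apply_univ, ENNReal.div_rpow_of_nonneg _ _ h0, ENNReal.rpow_sub _ _ L0 Lt,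
    ENNReal.rpow_one, div_eq_mul_inv, div_eq_mul_inv, div_eq_mul_inv, mul_assoc, mul_right_comm,
    ENNReal.mul_inv_cancel L0 Lt, one_mul]

theorem avg_le_const {f : ℝ → ℝ≥0∞} {a b : ℝ} {c : ℝ≥0∞} (h : ∀ᵐ y, y ∈ Ioo a b → f y ≤ c) :
    avg volume f a b ≤ c := by
  refine ENNReal.div_le_of_le_mul ?_
  rw [← setLIntegral_const]
  exact lintegral_mono_ae ((ae_restrict_iff' measurableSet_Ioo).2 h)

/-- the basic estimate for an `A_1` weight -/
theorem a1_neg {V : ℝ → ℝ≥0∞} {K : ℝ≥0∞} (hK : K ≠ ∞) (h : Pos V) (hm : Measurable V)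
    (h1 : ∀ x, Mx volume V x ≤ K * V x) {δ : ℝ} (hδ : 0 ≤ δ) {a b : ℝ} (hab : a < b) :
    avg volume (fun x => V x ^ (-δ)) a b * avg volume V a b ^ δ ≤ K ^ δ := by
  have a0 : avg volume V a b ≠ 0 := ENNReal.div_ne_zero.2 ⟨h.int hm hab, (vol_ne hab).2⟩
  have at' : avg volume V a b ≠ ∞ := by
    obtain ⟨y, hy, hy'⟩ := Measure.exists_mem_of_measure_ne_zero_of_ae (vol_ne hab).1
      (ae_restrict_of_ae h)
    exact ne_top_of_le_ne_top (ENNReal.mul_ne_top hK hy'.2) ((avg_le_Mx _ _ hy).trans (h1 y))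
  have r := rpow_ne ⟨a0, at'⟩ δ
  refine ENNReal.mul_le_of_le_div (avg_le_const (h.mono fun y hy hy' => ?_))
  rw [ENNReal.le_div_iff_mul_le (Or.inl r.1) (Or.inl r.2)]
  refine (mul_le_mul_right (ENNReal.rpow_le_rpow ((avg_le_Mx _ _ hy').trans (h1 y)) hδ) _).trans
    (le_of_eq ?_)
  rw [ENNReal.mul_rpow_of_nonneg _ _ hδ, mul_left_comm, ← ENNReal.rpow_add _ _ hy.1 hy.2,
    neg_add_cancel, ENNReal.rpow_zero, mul_one]

theorem ap_of_a1 {V : ℝ → ℝ≥0∞} {K : ℝ≥0∞} (hK : K ≠ ∞) (h : Pos V) (hm : Measurable V)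
    (h1 : ∀ x, Mx volume V x ≤ K * V x) {q : ℝ} (hq : 1 < q) : ApK q K V := by
  intro a b hab
  have q1 : 0 < q - 1 := by linarith
  have := ENNReal.rpow_le_rpow (a1_neg hK h hm h1 (δ := 1 / (q - 1)) (by positivity) hab) q1.le
  rwa [ENNReal.mul_rpow_of_nonneg _ _ q1.le, ← ENNReal.rpow_mul, ← ENNReal.rpow_mul,
    one_div_mul_cancel q1.ne', ENNReal.rpow_one, ENNReal.rpow_one, mul_comm, ← neg_div] at this

theorem ap_of_a1_neg {V : ℝ → ℝ≥0∞} {K : ℝ≥0∞} (hK : K ≠ ∞) (h : Pos V) (hm : Measurable V)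
    (h1 : ∀ x, Mx volume V x ≤ K * V x) {q δ : ℝ} (hq : 1 < q) (h0 : 0 ≤ δ) (hδ : δ ≤ q - 1) :
    ApK q (K ^ δ) fun x => V x ^ (-δ) := by
  intro a b hab
  have q1 : 0 < q - 1 := by linarith
  refine le_trans (mul_le_mul_right ?_ _) (a1_neg hK h hm h1 h0 hab)
  simp only [← ENNReal.rpow_mul]
  rw [show -δ * (-1 / (q - 1)) = δ / (q - 1) by ring]
  refine (ENNReal.rpow_le_rpow (avg_jensen hm (by positivity) ((div_le_one q1).2 hδ) hab)
    q1.le).trans (le_of_eq ?_)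
  rw [← ENNReal.rpow_mul, div_mul_cancel₀ _ q1.ne']

theorem Mx_tsum (c : ℕ → ℝ≥0∞) {g : ℕ → ℝ → ℝ≥0∞} (hg : ∀ k, Measurable (g k)) (x : ℝ) :
    Mx volume (fun y => ∑' k, c k * g k y) x ≤ ∑' k, c k * Mx volume (g k) x := by
  refine Mx_le fun a b hx => le_trans (le_of_eq ?_)
    (ENNReal.tsum_le_tsum fun k => mul_le_mul_right (avg_le_Mx _ _ hx) _)
  unfold avg
  rw [lintegral_tsum fun k => ((hg k).const_mul _).aemeasurable, div_eq_mul_inv,
    ← ENNReal.tsum_mul_right]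
  exact tsum_congr fun k => by rw [lintegral_const_mul _ (hg k), mul_assoc, div_eq_mul_inv]

theorem Mx_pos {h : ℝ → ℝ≥0∞} (h0 : ∫⁻ x, h x ≠ 0) (x : ℝ) : Mx volume h x ≠ 0 := by
  intro hz
  refine h0 (le_antisymm ?_ zero_le)
  rw [← setLIntegral_univ, ← Metric.iUnion_ball_nat_succ x]
  refine (lintegral_iUnion_le _ _).trans (le_of_eq (ENNReal.tsum_eq_zero.2 fun n => ?_))
  have n0 : (0 : ℝ) < n + 1 := by positivity
  have := avg_le_Mx volume h (show x ∈ Ioo (x - (n + 1)) (x + (n + 1)) from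
    ⟨by linarith, by linarith⟩)
  rw [hz, nonpos_iff_eq_zero, avg, ENNReal.div_eq_zero_iff] at this
  rw [Real.ball_eq_Ioo]
  exact this.resolve_right (vol_ne (by linarith)).2

/-- **the Rubio de Francia iteration** -/
theorem rdf {p : ℝ} (hp : 1 < p) : ∃ K D : ℝ≥0∞, K ≠ ∞ ∧ D ≠ ∞ ∧ ∀ h : ℝ → ℝ≥0∞, Measurable h →
    ∫⁻ x, h x ^ p ≠ 0 → ∫⁻ x, h x ^ p ≠ ∞ → ∃ V : ℝ → ℝ≥0∞, Measurable V ∧ Pos V ∧
      (∀ x, h x ≤ V x) ∧ ∫⁻ x, V x ^ p ≤ D * ∫⁻ x, h x ^ p ∧ ∀ x, Mx volume V x ≤ K * V x := by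
  have p0 : 0 < p := by linarith
  obtain ⟨c, c0, ct, H⟩ := strong hp
  obtain ⟨B0, Bt⟩ := rpow_ne ⟨c0, ct⟩ (1 / p)
  set B := c ^ (1 / p) with hB
  have Dt : (2 : ℝ≥0∞) ^ (p - 1) * 2 ≠ ∞ :=
    ENNReal.mul_ne_top (ENNReal.rpow_ne_top_of_nonneg (by linarith) (by simp)) (by simp)
  refine ⟨2 * B, 2 ^ (p - 1) * 2, ENNReal.mul_ne_top (by simp) Bt, Dt, fun h hm h0 ht => ?_⟩
  set g : ℕ → ℝ → ℝ≥0∞ := fun k => (Mx volume)^[k] h with hg
  have gs : ∀ k, g (k + 1) = Mx volume (g k) := fun k => Function.iterate_succ_apply' _ _ _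
  have mg : ∀ k, Measurable (g k) := fun k => by
    cases k with
    | zero => exact hm
    | succ k => rw [gs]; exact Mx_meas _ _
  have ig : ∀ k, ∫⁻ x, g k x ^ p ≤ c ^ k * ∫⁻ x, h x ^ p := fun k => by
    induction k with
    | zero => simp [hg]
    | succ k ih =>
      rw [gs, pow_succ', mul_assoc]
      exact (H volume _ (mg k)).trans (mul_le_mul_right ih _)
  set V : ℝ → ℝ≥0∞ := fun x => ∑' k, (2⁻¹ * B⁻¹) ^ k * g k x with hV
  have mV : Measurable V := Measurable.tsum fun k => (mg k).const_mul _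
  have iV : ∫⁻ x, V x ^ p ≤ 2 ^ (p - 1) * 2 * ∫⁻ x, h x ^ p := by
    have pt : ∀ x, V x ^ p ≤ 2 ^ (p - 1) * ∑' k, 2⁻¹ ^ k * (B⁻¹ ^ k * g k x) ^ p := by
      intro x
      have j := jensen (Measure.count.withDensity fun k : ℕ => (2⁻¹ : ℝ≥0∞) ^ k)
        (f := fun k => (B⁻¹ ^ k * g k x) ^ p) (measurable_of_countable _) (θ := 1 / p)
        (by positivity) ((div_le_one p0).2 hp.le)
      rw [lintegral_withDensity_eq_lintegral_mul _ (measurable_of_countable _)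
        (measurable_of_countable _), lintegral_withDensity_eq_lintegral_mul _
        (measurable_of_countable _) (measurable_of_countable _),
        withDensity_apply _ MeasurableSet.univ, Measure.restrict_univ, lintegral_count,
        lintegral_count, lintegral_count, ENNReal.tsum_geometric_two] at j
      simp only [Pi.mul_apply, ← ENNReal.rpow_mul, mul_one_div_cancel p0.ne',
        ENNReal.rpow_one] at j
      have e : V x = ∑' k, 2⁻¹ ^ k * (B⁻¹ ^ k * g k x) :=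
        tsum_congr fun k => by rw [mul_pow, mul_assoc]
      rw [e]
      refine (ENNReal.rpow_le_rpow j p0.le).trans (le_of_eq ?_)
      rw [ENNReal.mul_rpow_of_nonneg _ _ p0.le, ← ENNReal.rpow_mul, ← ENNReal.rpow_mul,
        one_div_mul_cancel p0.ne', ENNReal.rpow_one, mul_comm, sub_mul, one_mul,
        one_div_mul_cancel p0.ne']
    have m2 : ∀ k : ℕ, Measurable fun x => (2⁻¹ : ℝ≥0∞) ^ k * (B⁻¹ ^ k * g k x) ^ p :=
      fun k => (((mg k).const_mul _).pow_const _).const_mul _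
    refine (lintegral_mono pt).trans ?_
    rw [lintegral_const_mul _ (Measurable.tsum m2), lintegral_tsum fun k =>
      (m2 k).aemeasurable, mul_assoc]
    refine mul_le_mul_right ?_ _
    refine (ENNReal.tsum_le_tsum (g := fun k => 2⁻¹ ^ k * ∫⁻ x, h x ^ p) fun k => ?_).trans
      (by rw [ENNReal.tsum_mul_right, ENNReal.tsum_geometric_two])
    rw [lintegral_const_mul _ (((mg k).const_mul _).pow_const _)]
    refine mul_le_mul_right ?_ _
    simp only [ENNReal.mul_rpow_of_nonneg _ _ p0.le]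
    rw [lintegral_const_mul _ ((mg k).pow_const _)]
    refine (mul_le_mul_right (ig k) _).trans (le_of_eq ?_)
    rw [← mul_assoc, ← ENNReal.rpow_natCast, ← ENNReal.rpow_mul, mul_comm (k : ℝ), ENNReal.rpow_mul,
      ENNReal.rpow_natCast, ← mul_pow, ENNReal.inv_rpow, hB, ← ENNReal.rpow_mul,
      one_div_mul_cancel p0.ne', ENNReal.rpow_one, ENNReal.inv_mul_cancel c0 ct, one_pow, one_mul]
  refine ⟨V, mV, ?_, fun x => ?_, iV, fun x => ?_⟩
  · filter_upwards [ae_lt_top (mV.pow_const p) (ne_top_of_le_ne_top (ENNReal.mul_ne_top Dt ht) iV)]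
      with x hx
    refine ⟨fun hz => ?_, fun hz => by simp [hz, p0] at hx⟩
    have k := ENNReal.tsum_eq_zero.1 hz 1
    rw [pow_one, mul_eq_zero, mul_eq_zero, ENNReal.inv_eq_zero, ENNReal.inv_eq_zero] at k
    refine Mx_pos (fun hz => h0 ?_) x (k.resolve_left fun k => k.elim (by simp) Bt)
    refine (lintegral_eq_zero_iff (hm.pow_const p)).2 ?_
    filter_upwards [(lintegral_eq_zero_iff hm).1 hz] with y hy
    simp only [Pi.zero_apply] at hy ⊢
    rw [hy, ENNReal.zero_rpow_of_pos p0]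
  · simpa [hg] using ENNReal.le_tsum (f := fun k => (2⁻¹ * B⁻¹) ^ k * g k x) 0
  · refine (Mx_tsum _ mg x).trans ?_
    refine le_trans (le_of_eq ?_) (mul_le_mul_right (ENNReal.tsum_comp_le_tsum_of_injective
      Nat.succ_injective fun k => (2⁻¹ * B⁻¹) ^ k * g k x) _)
    rw [← ENNReal.tsum_mul_left]
    refine tsum_congr fun k => ?_
    rw [Nat.succ_eq_add_one, gs, pow_succ', mul_assoc (2⁻¹ * B⁻¹), ← mul_assoc (2 * B),
      mul_mul_mul_comm 2 B, ENNReal.mul_inv_cancel (by simp) (by simp), ENNReal.mul_inv_cancel B0 Bt,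
      one_mul, one_mul]

theorem trunc_sup {Φ : ℝ → ℝ≥0∞} (hΦ : Measurable Φ) {B : ℝ≥0∞} (H : ∀ h : ℝ → ℝ≥0∞, Measurable h →
    (∀ x, h x ≤ Φ x) → ∫⁻ x, h x ≠ ∞ → ∫⁻ x, h x ≤ B) : ∫⁻ x, Φ x ≤ B := by
  refine lintegral_le_of_forall_fin_meas_le B fun s hs ht => ?_
  have e : ∀ x, Φ x = ⨆ n : ℕ, min (Φ x) n := fun x => by
    rw [← inf_iSup_eq, ENNReal.iSup_natCast, inf_top_eq]
  rw [lintegral_congr e, lintegral_iSup (fun n => hΦ.min measurable_const)
    fun a b hab x => min_le_min_left _ (Nat.cast_le.2 hab)]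
  refine iSup_le fun n => ?_
  rw [← lintegral_indicator hs]
  refine H _ ((hΦ.min measurable_const).indicator hs) (fun x =>
    (indicator_le_self _ _ x).trans (min_le_left _ _)) (ne_top_of_le_ne_top
      (ENNReal.mul_ne_top (ENNReal.natCast_ne_top n) ht) ?_)
  rw [lintegral_indicator hs, ← setLIntegral_const]
  exact lintegral_mono fun x => min_le_right _ _

theorem absorb {X A : ℝ≥0∞} {θ : ℝ} (h1 : θ < 1) (hX : X ≠ ∞) (h : X ≤ A * X ^ θ) :
    X ≤ A ^ (1 - θ)⁻¹ := by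
  rcases eq_or_ne X 0 with rfl | X0
  · exact zero_le
  refine (ENNReal.le_rpow_inv_iff (by linarith)).2 ?_
  obtain ⟨a, b⟩ := rpow_ne ⟨X0, hX⟩ θ
  refine (ENNReal.mul_le_mul_iff_left a b).1 (le_trans (le_of_eq ?_) h)
  rw [← ENNReal.rpow_add _ _ X0 hX, sub_add_cancel, ENNReal.rpow_one]

theorem sum_muck {s : ℝ} {c : ℝ≥0∞} {W : ℝ → ℝ≥0∞} (hW : Measurable W)
    (H : ∀ f : ℝ → ℝ≥0∞, Measurable f → ∫⁻ x, Mx volume f x ^ s * W x ≤ c * ∫⁻ x, f x ^ s * W x)
    {f : ℕ → ℝ → ℝ≥0∞} (hf : ∀ k, Measurable (f k)) :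
    ∫⁻ x, (∑' k, Mx volume (f k) x ^ s) * W x ≤ c * ∫⁻ x, (∑' k, f k x ^ s) * W x := by
  simp only [← ENNReal.tsum_mul_right]
  rw [lintegral_tsum fun k => (((Mx_meas _ _).pow_const _).fun_mul hW).aemeasurable,
    lintegral_tsum fun k => (((hf k).pow_const _).fun_mul hW).aemeasurable, ← ENNReal.tsum_mul_left]
  exact ENNReal.tsum_le_tsum fun k => H _ (hf k)

/-- **the Fefferman–Stein inequality** -/
theorem fs {p s : ℝ} (hp : 1 < p) (hs : 1 < s) : ∃ c : ℝ≥0∞, c ≠ ∞ ∧ ∀ f : ℕ → ℝ → ℝ≥0∞,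
    (∀ k, Measurable (f k)) → ∫⁻ x, (∑' k, Mx volume (f k) x ^ s) ^ (p / s) ≤
      c * ∫⁻ x, (∑' k, f k x ^ s) ^ (p / s) := by
  have p0 : 0 < p := by linarith
  have s0 : 0 < s := by linarith
  have t0 : 0 < p / s := by positivity
  have mG : ∀ f : ℕ → ℝ → ℝ≥0∞, Measurable fun x => ∑' k, Mx volume (f k) x ^ s :=
    fun f => Measurable.tsum fun k => (Mx_meas _ _).pow_const _
  have mΦ : ∀ f : ℕ → ℝ → ℝ≥0∞, (∀ k, Measurable (f k)) → Measurable fun x => ∑' k, f k x ^ s :=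
    fun f hf => Measurable.tsum fun k => (hf k).pow_const _
  rcases le_or_gt p s with hps | hps
  · obtain ⟨K, D, Kt, Dt, R⟩ := rdf hp
    have δ0 : 0 ≤ s - p := by linarith
    obtain ⟨c, ct, M⟩ := muck hs (ENNReal.rpow_ne_top_of_nonneg δ0 Kt)
    have u1 : 0 ≤ 1 - p / s := sub_nonneg.2 ((div_le_one s0).2 hps)
    refine ⟨c ^ (p / s) * D ^ (1 - p / s) + 1, ENNReal.add_ne_top.2 ⟨ENNReal.mul_ne_top
      (ENNReal.rpow_ne_top_of_nonneg t0.le ct) (ENNReal.rpow_ne_top_of_nonneg u1 Dt), by simp⟩,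
      fun f hf => ?_⟩
    rcases eq_or_ne (∫⁻ x, (∑' k, f k x ^ s) ^ (p / s)) ∞ with ht | ht
    · rw [ht, ENNReal.mul_top (by simp)]
      exact le_top
    rcases eq_or_ne (∫⁻ x, (∑' k, f k x ^ s) ^ (p / s)) 0 with h0 | h0
    · obtain ⟨c', -, -, H⟩ := strong hs
      have k := sum_muck (s := s) (c := c') (W := fun _ => 1) measurable_const
        (fun f hf => by simpa using H volume f hf) hf
      have z : ∫⁻ x, (∑' k, f k x ^ s) * 1 = 0 := by
        refine lintegral_eq_zero_of_ae_eq_zero ?_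
        filter_upwards [(lintegral_eq_zero_iff ((mΦ f hf).pow_const _)).1 h0] with x hx
        rw [Pi.zero_apply, mul_one]
        exact (ENNReal.rpow_eq_zero_iff_of_pos t0).1 hx
      rw [z, mul_zero, nonpos_iff_eq_zero] at k
      refine le_of_eq_of_le (lintegral_eq_zero_of_ae_eq_zero ?_) zero_le
      filter_upwards [(lintegral_eq_zero_iff ((mG f).mul measurable_const)).1 k] with x hx
      simp only [Pi.zero_apply, Pi.mul_apply, mul_one] at hx ⊢
      rw [hx, ENNReal.zero_rpow_of_pos t0]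
    have e : ∀ x, ((∑' k, f k x ^ s) ^ (1 / s)) ^ p = (∑' k, f k x ^ s) ^ (p / s) := fun x => by
      rw [← ENNReal.rpow_mul, one_div_mul_eq_div]
    obtain ⟨V, mV, pV, hV, iV, aV⟩ := R _ ((mΦ f hf).pow_const (1 / s))
      (by simpa only [e] using h0) (by simpa only [e] using ht)
    simp only [e] at iV
    have mW := mV.pow_const (-(s - p))
    have k := sum_muck mW (M _ (pV.rpow _) mW (ap_of_a1_neg Kt pV mV aV hs δ0 (by linarith))) hf
    have k2 : ∫⁻ x, (∑' k, f k x ^ s) * V x ^ (-(s - p)) ≤ ∫⁻ x, (∑' k, f k x ^ s) ^ (p / s) := by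
      refine lintegral_mono_ae (pV.mono fun x hx => ?_)
      have h1 := hV x
      generalize (∑' k, f k x ^ s) = Φ at *
      rcases eq_or_ne Φ 0 with rfl | Φ0
      · simp
      have Φt : Φ ≠ ∞ := by
        rintro rfl
        rw [ENNReal.top_rpow_of_pos (by positivity)] at h1
        exact hx.2 (top_le_iff.1 h1)
      rw [ENNReal.rpow_neg]
      refine (mul_le_mul_right (ENNReal.inv_le_inv.2 (ENNReal.rpow_le_rpow h1 δ0)) _).trans
        (le_of_eq ?_)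
      rw [← ENNReal.rpow_mul, ← ENNReal.rpow_neg]
      nth_rewrite 1 [← ENNReal.rpow_one Φ]
      rw [← ENNReal.rpow_add _ _ Φ0 Φt]
      congr 1
      field_simp
      ring
    calc _ = ∫⁻ x, ((∑' k, Mx volume (f k) x ^ s) * V x ^ (-(s - p))) ^ (p / s) *
          (V x ^ p) ^ (1 - p / s) := by
          refine lintegral_congr_ae (pV.mono fun x hx => ?_)
          simp only
          rw [ENNReal.mul_rpow_of_nonneg _ _ t0.le, ← ENNReal.rpow_mul, ← ENNReal.rpow_mul,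
            mul_assoc, ← ENNReal.rpow_add _ _ hx.1 hx.2,
            show -(s - p) * (p / s) + p * (1 - p / s) = 0 by field_simp; ring, ENNReal.rpow_zero,
            mul_one]
      _ ≤ _ := ENNReal.lintegral_mul_norm_pow_le ((mG f).mul mW).aemeasurable
          (mV.pow_const p).aemeasurable t0.le u1 (add_sub_cancel _ _)
      _ ≤ (c * ∫⁻ x, (∑' k, f k x ^ s) ^ (p / s)) ^ (p / s) *
          (D * ∫⁻ x, (∑' k, f k x ^ s) ^ (p / s)) ^ (1 - p / s) :=
          mul_le_mul' (ENNReal.rpow_le_rpow (k.trans (mul_le_mul_right k2 _)) t0.le)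
            (ENNReal.rpow_le_rpow iV u1)
      _ ≤ _ := by
          rw [ENNReal.mul_rpow_of_nonneg _ _ t0.le, ENNReal.mul_rpow_of_nonneg _ _ u1,
            mul_mul_mul_comm, ← ENNReal.rpow_add_of_nonneg _ _ t0.le u1, add_sub_cancel,
            ENNReal.rpow_one]
          exact mul_le_mul_left le_self_add _
  · have t1 : 1 < p / s := (one_lt_div s0).2 hps
    generalize p / s = t at *
    have u0 : 0 < 1 - t⁻¹ := sub_pos.2 (inv_lt_one_of_one_lt₀ t1)
    have v0 : 0 < t⁻¹ := by positivity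
    obtain ⟨K, D, Kt, Dt, R⟩ := rdf (p := (1 - t⁻¹)⁻¹) ((one_lt_inv₀ u0).2 (by linarith))
    obtain ⟨c, ct, M⟩ := muck hs Kt
    refine ⟨(c * D ^ (1 - t⁻¹)) ^ t, ENNReal.rpow_ne_top_of_nonneg t0.le (ENNReal.mul_ne_top ct
      (ENNReal.rpow_ne_top_of_nonneg u0.le Dt)), fun f hf =>
      trunc_sup ((mG f).pow_const _) fun h mh hh ht => ?_⟩
    rcases eq_or_ne (∫⁻ x, h x) 0 with h0 | h0
    · rw [h0]
      exact zero_le
    have e : ∀ x, (h x ^ (1 - t⁻¹)) ^ (1 - t⁻¹)⁻¹ = h x := fun x =>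
      ENNReal.rpow_rpow_inv u0.ne' _
    obtain ⟨V, mV, pV, hV, iV, aV⟩ := R _ (mh.pow_const (1 - t⁻¹))
      (by simpa only [e] using h0) (by simpa only [e] using ht)
    simp only [e] at iV
    have k := sum_muck mV (M _ pV mV (ap_of_a1 Kt pV mV aV hs)) hf
    have k1 : ∫⁻ x, h x ≤ ∫⁻ x, (∑' k, Mx volume (f k) x ^ s) * V x := by
      refine lintegral_mono fun x => ?_
      calc h x = h x ^ t⁻¹ * h x ^ (1 - t⁻¹) := by
            rw [← ENNReal.rpow_add_of_nonneg _ _ v0.le u0.le, add_sub_cancel, ENNReal.rpow_one]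
        _ ≤ _ := mul_le_mul' ((ENNReal.rpow_inv_le_iff t0).2 (hh x)) (hV x)
    have k2 := ENNReal.lintegral_mul_norm_pow_le (μ := volume)
      ((mΦ f hf).pow_const t).aemeasurable (mV.pow_const (1 - t⁻¹)⁻¹).aemeasurable v0.le u0.le
      (add_sub_cancel _ _)
    simp only [ENNReal.rpow_rpow_inv t0.ne', ENNReal.rpow_inv_rpow u0.ne'] at k2
    have k3 := absorb (A := c * D ^ (1 - t⁻¹) * (∫⁻ x, (∑' k, f k x ^ s) ^ t) ^ t⁻¹)
      (θ := 1 - t⁻¹) (by linarith) ht (k1.trans (k.trans ((mul_le_mul_right (k2.trans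
        (mul_le_mul_right (ENNReal.rpow_le_rpow iV u0.le) _)) _).trans (le_of_eq (by
          rw [ENNReal.mul_rpow_of_nonneg _ _ u0.le]
          ring)))))
    rwa [sub_sub_cancel, inv_inv, ENNReal.mul_rpow_of_nonneg _ _ t0.le,
      ENNReal.rpow_inv_rpow t0.ne'] at k3

end Vale.Agent.N141W
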