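import Vale.Agent.N141W.Bump
import Mathlib.Analysis.SpecialFunctions.Trigonometric.Sinc
import Mathlib.Analysis.SpecialFunctions.ImproperIntegrals

/-!
# Transference, IV: the principal value as an absolutely convergent integral
-/

open MeasureTheory Set Filter Topology
open scoped ENNReal SchwartzMap

namespace Vale.Agent.N141W

open Vale.Agent.P141

theorem odd_int {F : ℝ → ℂ} (hF : Differentiable ℝ F) (hi : Integrable F) :
    IntegrableOn (fun t : ℝ => (F t - F (-t)) / (t : ℂ)) (Ioi 0) := by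
  have hG : Differentiable ℝ fun t => F t - F (-t) := hF.sub (hF.comp differentiable_neg)
  have hc : Continuous (dslope (fun t => F t - F (-t)) 0) := by
    rw [← continuousOn_univ, continuousOn_dslope univ_mem]
    exact ⟨hG.continuous.continuousOn, hG 0⟩
  rw [← Ioc_union_Ioi_eq_Ioi zero_le_one]
  refine IntegrableOn.union ?_ ?_
  · refine ((hc.integrableOn_Icc (a := 0) (b := 1)).mono_set Ioc_subset_Icc_self).congr_fun
      (fun t ht => ?_) measurableSet_Ioc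
    rw [dslope_of_ne _ ht.1.ne', slope_def_module]
    simp [div_eq_inv_mul]
  · refine Integrable.mono' (hi.sub hi.comp_neg).norm.integrableOn
      (hG.continuous.measurable.div Complex.measurable_ofReal).aestronglyMeasurable ?_
    filter_upwards [ae_restrict_mem measurableSet_Ioi] with t ht
    rw [norm_div, Complex.norm_real, Real.norm_of_nonneg (zero_le_one.trans (le_of_lt ht))]
    exact div_le_self (norm_nonneg _) (le_of_lt ht)

theorem trunc_odd {F : ℝ → ℂ} (hF : Continuous F) {ε R : ℝ} (hε : 0 < ε) (hR : ε ≤ R) :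
    ∫ t in {t : ℝ | ε < |t| ∧ |t| < R}, F t / (t : ℂ) =
      ∫ t in Ioo ε R, (F t - F (-t)) / (t : ℂ) := by
  have e : {t : ℝ | ε < |t| ∧ |t| < R} = Ioo ε R ∪ Ioo (-R) (-ε) := by
    ext t
    simp only [mem_ofPred_eq, mem_union, mem_Ioo]
    rcases le_total 0 t with h | h
    · rw [abs_of_nonneg h]
      exact ⟨Or.inl, fun k => k.elim id fun k => absurd k.2 (by linarith)⟩
    · rw [abs_of_nonpos h]
      exact ⟨fun k => Or.inr ⟨by linarith [k.2], by linarith [k.1]⟩,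
        fun k => k.elim (fun k => absurd k.1 (by linarith)) fun k => ⟨by linarith [k.2],
          by linarith [k.1]⟩⟩
  have c : ∀ {G : ℝ → ℂ}, Continuous G → ∀ a b : ℝ, (∀ t ∈ Icc a b, t ≠ 0) →
      IntegrableOn (fun t : ℝ => G t / (t : ℂ)) (Ioo a b) := fun hG a b h =>
    ((hG.continuousOn.div Complex.continuous_ofReal.continuousOn fun t ht => by
      exact_mod_cast h t ht).integrableOn_Icc).mono_set Ioo_subset_Icc_self
  have p : ∀ t ∈ Icc ε R, t ≠ 0 := fun t ht => (hε.trans_le ht.1).ne'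
  rw [e, setIntegral_union (disjoint_left.2 fun t h1 h2 => by linarith [h1.1, h2.2])
    measurableSet_Ioo (c hF _ _ p) (c hF _ _ fun t ht => (by linarith [ht.2] : t < 0).ne)]
  simp only [sub_div]
  rw [integral_sub (c hF _ _ p) (c (G := fun t => F (-t)) (hF.comp continuous_neg) _ _ p), sub_eq_add_neg]
  congr 1
  rw [← integral_neg, ← integral_Ioc_eq_integral_Ioo, ← integral_Ioc_eq_integral_Ioo,
    ← intervalIntegral.integral_of_le hR, ← intervalIntegral.integral_of_le (neg_le_neg hR),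
    ← intervalIntegral.integral_comp_neg]
  congr 1
  funext t
  push_cast
  rw [div_neg]

theorem ev_box : ∀ᶠ q : ℝ × ℝ in 𝓝[>] (0 : ℝ) ×ˢ atTop, 0 < q.1 ∧ q.1 < q.2 := by
  have a : ∀ᶠ e : ℝ in 𝓝[>] 0, e ∈ Ioo (0 : ℝ) 1 := Ioo_mem_nhdsGT zero_lt_one
  exact (a.prod_mk (eventually_ge_atTop (1 : ℝ))).mono fun q hq => ⟨hq.1.1, hq.1.2.trans_le hq.2⟩

theorem pv_tendsto {F : ℝ → ℂ} (hF : Differentiable ℝ F) (hi : Integrable F) :
    Tendsto (fun q : ℝ × ℝ => ∫ t in {t : ℝ | q.1 < |t| ∧ |t| < q.2}, F t / (t : ℂ))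
      (𝓝[>] (0 : ℝ) ×ˢ atTop) (𝓝 (∫ t in Ioi (0 : ℝ), (F t - F (-t)) / (t : ℂ))) := by
  have hD := odd_int hF hi
  have key : Tendsto (fun q : ℝ × ℝ => ∫ t in Ioi (0 : ℝ),
      (Ioo q.1 q.2).indicator (fun t : ℝ => (F t - F (-t)) / (t : ℂ)) t)
      (𝓝[>] (0 : ℝ) ×ˢ atTop) (𝓝 (∫ t in Ioi (0 : ℝ), (F t - F (-t)) / (t : ℂ))) := by
    refine tendsto_integral_filter_of_dominated_convergence _ (Eventually.of_forall fun q =>
      hD.aestronglyMeasurable.indicator measurableSet_Ioo) (Eventually.of_forall fun q =>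
      ae_of_all _ fun t => norm_indicator_le_norm_self _ _) hD.norm ?_
    filter_upwards [ae_restrict_mem measurableSet_Ioi] with t ht
    refine tendsto_const_nhds.congr' ?_
    have a : ∀ᶠ e : ℝ in 𝓝[>] 0, e ∈ Ioo (0 : ℝ) t := Ioo_mem_nhdsGT ht
    exact (a.prod_mk (eventually_gt_atTop t)).mono fun q hq =>
      (indicator_of_mem (show t ∈ Ioo q.1 q.2 from ⟨hq.1.2, hq.2⟩)
        fun t : ℝ => (F t - F (-t)) / (t : ℂ)).symm
  refine key.congr' (ev_box.mono fun q hq => ?_)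
  simp only
  rw [trunc_odd hF.continuous hq.1 hq.2.le, integral_indicator measurableSet_Ioo,
    Measure.restrict_restrict measurableSet_Ioo,
    inter_eq_left.2 (show Ioo q.1 q.2 ⊆ Ioi 0 from fun t ht => hq.1.trans ht.1)]

theorem pr_diff (f₁ f₂ f₃ : 𝓢(ℝ, ℂ)) (x : ℝ) : Differentiable ℝ (pr f₁ f₂ f₃ x) := by
  have a := f₁.differentiable
  have b := f₂.differentiable
  have c := f₃.differentiable
  unfold pr
  fun_prop

theorem pr_int (f₁ f₂ f₃ : 𝓢(ℝ, ℂ)) (x : ℝ) : Integrable (pr f₁ f₂ f₃ x) := by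
  obtain ⟨B₂, h₂⟩ := schw_bd f₂
  obtain ⟨B₃, h₃⟩ := schw_bd f₃
  have b := (norm_nonneg _).trans (h₂ 0)
  refine Integrable.mono' (((f₁.integrable.comp_sub_left x).norm.mul_const B₂).mul_const B₃)
    (pr_diff f₁ f₂ f₃ x).continuous.aestronglyMeasurable (ae_of_all _ fun t => ?_)
  unfold pr
  rw [norm_mul, norm_mul]
  gcongr
  exacts [h₂ _, h₃ _]

theorem tht_eq (f₁ f₂ f₃ : 𝓢(ℝ, ℂ)) (x : ℝ) : THT f₁ f₂ f₃ x =
    ∫ t in Ioi (0 : ℝ), (pr f₁ f₂ f₃ x t - pr f₁ f₂ f₃ x (-t)) / (t : ℂ) :=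
  (pv_tendsto (pr_diff f₁ f₂ f₃ x) (pr_int f₁ f₂ f₃ x)).limUnder_eq

/-- the limit defining `T` exists -/
theorem tht_tendsto (f₁ f₂ f₃ : 𝓢(ℝ, ℂ)) (x : ℝ) :
    Tendsto (fun q : ℝ × ℝ => truncTHT f₁ f₂ f₃ q.1 q.2 x) (𝓝[>] (0 : ℝ) ×ˢ atTop)
      (𝓝 (THT f₁ f₂ f₃ x)) := by
  rw [tht_eq]
  exact pv_tendsto (pr_diff f₁ f₂ f₃ x) (pr_int f₁ f₂ f₃ x)

theorem tht_seq (f₁ f₂ f₃ : 𝓢(ℝ, ℂ)) (x : ℝ) :
    Tendsto (fun n : ℕ => truncTHT f₁ f₂ f₃ (1 / ((n : ℝ) + 1)) (n + 2) x) atTop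
      (𝓝 (THT f₁ f₂ f₃ x)) := by
  have a : Tendsto (fun n : ℕ => 1 / ((n : ℝ) + 1)) atTop (𝓝[>] 0) :=
    tendsto_nhdsWithin_iff.2 ⟨tendsto_one_div_add_atTop_nhds_zero_nat,
      Eventually.of_forall fun n => by simp only [mem_Ioi]; positivity⟩
  exact (tht_tendsto f₁ f₂ f₃ x).comp (a.prodMk
    (tendsto_atTop_add_const_right _ 2 tendsto_natCast_atTop_atTop))

theorem tht_meas (f₁ f₂ f₃ : 𝓢(ℝ, ℂ)) : Measurable (THT f₁ f₂ f₃) :=
  measurable_of_tendsto_metrizable (fun _ => trunc_meas f₁.continuous f₂.continuous f₃.continuous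
    _ _) (tendsto_pi_nhds.2 (tht_seq f₁ f₂ f₃))

theorem bdd_of_trunc {p₁ p₂ p₃ r : ℝ≥0∞} (H : TruncBounded p₁ p₂ p₃ r) : BoundedAt p₁ p₂ p₃ r := by
  obtain ⟨C, hC, H⟩ := H
  refine ⟨C, hC, fun f₁ f₂ f₃ => (Lp.eLpNorm_lim_le_liminf_eLpNorm (fun n =>
    (trunc_meas f₁.continuous f₂.continuous f₃.continuous _ _).aestronglyMeasurable) _
    (ae_of_all _ (tht_seq f₁ f₂ f₃))).trans (liminf_le_of_frequently_le'
      (Frequently.of_forall fun n => H f₁ f₂ f₃ _ _ (by positivity) ?_))⟩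
  have : 1 / ((n : ℝ) + 1) ≤ 1 := by
    rw [div_le_one (by positivity)]; linarith [Nat.cast_nonneg (α := ℝ) n]
  linarith [Nat.cast_nonneg (α := ℝ) n]

/-- Minkowski's inequality for averages -/
theorem mink {X Y : Type*} [MeasurableSpace X] [MeasurableSpace Y] {μ : Measure X} {ν : Measure Y}
    [SFinite μ] [SFinite ν] {r B : ℝ≥0∞} (h1 : 1 ≤ r) (ht : r ≠ ∞) {G : X × Y → ℂ}
    (hG : Measurable G) {S : X → ℂ} (hS : ∀ x, ‖S x‖ₑ ≤ ∫⁻ y, ‖G (x, y)‖ₑ ∂ν)
    (hB : ∀ y, eLpNorm (fun x => G (x, y)) r μ ≤ B) :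
    eLpNorm S r μ ≤ ν univ * B := by
  have h0 : r ≠ 0 := (zero_lt_one.trans_le h1).ne'
  have hr := ENNReal.toReal_pos h0 ht
  have hr1 : 1 ≤ r.toReal := by
    rwa [← ENNReal.toReal_le_toReal ENNReal.one_ne_top ht, ENNReal.toReal_one] at h1
  rw [← ENNReal.rpow_le_rpow_iff hr, eLp_pow h0 ht]
  have hm : Measurable fun z => ‖G z‖ₑ ^ r.toReal := hG.enorm.pow_const _
  calc ∫⁻ x, ‖S x‖ₑ ^ r.toReal ∂μ
      ≤ ∫⁻ x, ν univ ^ (r.toReal - 1) * ∫⁻ y, ‖G (x, y)‖ₑ ^ r.toReal ∂ν ∂μ := by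
        refine lintegral_mono fun x => ?_
        have a := eLpNorm_le_eLpNorm_mul_rpow_measure_univ (μ := ν) h1
          (hG.comp (measurable_prodMk_left (x := x))).aestronglyMeasurable
        rw [eLpNorm_one_eq_lintegral_enorm] at a
        refine (ENNReal.rpow_le_rpow ((hS x).trans a) hr.le).trans (le_of_eq ?_)
        rw [ENNReal.mul_rpow_of_nonneg _ _ hr.le, eLp_pow h0 ht, ← ENNReal.rpow_mul, mul_comm]
        congr 2
        rw [ENNReal.toReal_one]
        field_simp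
    _ = ν univ ^ (r.toReal - 1) * ∫⁻ y, ∫⁻ x, ‖G (x, y)‖ₑ ^ r.toReal ∂μ ∂ν := by
        rw [lintegral_const_mul _ hm.lintegral_prod_right',
          lintegral_lintegral_swap (f := fun x y => ‖G (x, y)‖ₑ ^ r.toReal) hm.aemeasurable]
    _ ≤ ν univ ^ (r.toReal - 1) * ∫⁻ _, B ^ r.toReal ∂ν := by
        refine mul_le_mul_right (lintegral_mono fun y => ?_) _
        rw [← eLp_pow h0 ht (fun x => G (x, y))]
        exact ENNReal.rpow_le_rpow (hB y) hr.le
    _ = _ := by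
        rw [lintegral_const, ENNReal.mul_rpow_of_nonneg _ _ hr.le, mul_comm (B ^ _), ← mul_assoc]
        congr 1
        nth_rewrite 2 [← ENNReal.rpow_one (ν univ)]
        rw [← ENNReal.rpow_add_of_nonneg _ _ (by linarith) zero_le_one, sub_add_cancel]

/-- the character -/
noncomputable def ee (η t : ℝ) : ℂ := Complex.exp ((η * t : ℝ) * Complex.I)

theorem ee_norm (η t : ℝ) : ‖ee η t‖ = 1 := Complex.norm_exp_ofReal_mul_I _

theorem ee_cont : Continuous fun z : ℝ × ℝ => ee z.1 z.2 := by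
  unfold ee
  fun_prop

theorem ee_temp (η : ℝ) : Function.HasTemperateGrowth (ee η) := by
  have hd : ∀ t, HasDerivAt (ee η) (η * Complex.I * ee η t) t := fun t => by
    have := (((hasDerivAt_id t).const_mul η).ofReal_comp.mul_const Complex.I).cexp
    refine this.congr_deriv ?_
    simp only [ee, id, mul_one]
    ring
  have hs : ContDiff ℝ (⊤ : ℕ∞) (ee η) := by
    unfold ee
    exact ((Complex.ofRealCLM.contDiff.comp (contDiff_const.mul contDiff_id)).mul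
      contDiff_const).cexp
  have hi : ∀ n, iteratedDeriv n (ee η) = fun t => (η * Complex.I) ^ n * ee η t := by
    intro n
    induction n with
    | zero => simp
    | succ n ih =>
      rw [iteratedDeriv_succ, ih]
      funext t
      rw [((hd t).const_mul _).deriv]
      ring
  refine ⟨hs, fun n => ⟨0, ‖(η * Complex.I) ^ n‖, fun x => ?_⟩⟩
  rw [norm_iteratedFDeriv_eq_norm_iteratedDeriv, hi, norm_mul, ee_norm]
  simp

theorem ee_avg {s : ℝ} (hs : s ≠ 0) : ∫ ξ in Ioc (-1 : ℝ) 1, ee ξ s = 2 * Real.sinc s := by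
  have h : (s : ℂ) ≠ 0 := by exact_mod_cast hs
  have e : ∀ ξ : ℝ, ee ξ s = Complex.exp (s * Complex.I * ξ) := fun ξ => by
    unfold ee
    push_cast
    ring_nf
  simp only [e]
  rw [← intervalIntegral.integral_of_le (by norm_num),
    integral_exp_mul_complex (mul_ne_zero h Complex.I_ne_zero), Real.sinc_of_ne_zero hs]
  push_cast
  rw [Complex.sin, div_eq_iff (mul_ne_zero h Complex.I_ne_zero)]
  field_simp
  rw [Complex.I_sq]
  ring_nf

theorem ee_sub (η t : ℝ) : ‖ee η t - ee η (-t)‖ ≤ 2 * |η| * |t| := by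
  have a : ∀ s : ℝ, ‖ee η s - 1‖ ≤ |η| * |s| := fun s => by
    have := Real.norm_exp_I_mul_ofReal_sub_one_le (x := η * s)
    rwa [mul_comm Complex.I, Real.norm_eq_abs, abs_mul] at this
  have := norm_sub_le (ee η t - 1) (ee η (-t) - 1)
  rw [sub_sub_sub_cancel_right] at this
  have b := a (-t)
  rw [abs_neg] at b
  linarith [a t]

end Vale.Agent.N141W
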