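import Vale.Agent.N141W.Fub
import Mathlib.MeasureTheory.Function.Floor

/-!
# Transference, II: from the ergodic transforms to the truncations on the line (Riemann sums)
-/

open MeasureTheory Set Filter Topology
open scoped ENNReal SchwartzMap

namespace Vale.Agent.N141W

open Vale.Agent.P141

theorem step_int (G : ℝ → ℂ) {h : ℝ} (hh : 0 < h) (s : Finset ℤ) (hs : ∀ n ∉ s, G (n * h) = 0) :
    ∫ t, G (⌈t / h⌉ * h) = ∑ n ∈ s, (h : ℂ) * G (n * h) := by
  have e : ∀ t, G (⌈t / h⌉ * h) =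
      ∑ n ∈ s, (Ioc (((n : ℝ) - 1) * h) (n * h)).indicator (fun _ => G (n * h)) t := by
    intro t
    have key : ∀ n : ℤ, t ∈ Ioc (((n : ℝ) - 1) * h) (n * h) ↔ ⌈t / h⌉ = n := fun n => by
      rw [Int.ceil_eq_iff, lt_div_iff₀ hh, div_le_iff₀ hh, mem_Ioc]
    rw [Finset.sum_eq_single ⌈t / h⌉]
    · rw [indicator_of_mem ((key _).2 rfl)]
    · intro n _ hn
      exact indicator_of_notMem (fun hc => hn ((key n).1 hc).symm) _
    · intro hn
      rw [indicator_of_mem ((key _).2 rfl), hs _ hn]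
  simp only [e]
  rw [integral_finsetSum]
  · refine Finset.sum_congr rfl fun n _ => ?_
    rw [integral_indicator measurableSet_Ioc, setIntegral_const,
      Real.volume_real_Ioc_of_le (by nlinarith), Complex.real_smul]
    congr 2
    ring
  · intro n _
    exact (integrable_indicator_iff measurableSet_Ioc).2 (integrableOn_const (by simp))

theorem ceil_tendsto (t : ℝ) :
    Tendsto (fun j : ℕ => (⌈t / (1 / ((j : ℝ) + 1))⌉ : ℝ) * (1 / ((j : ℝ) + 1))) atTop (𝓝 t) := by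
  have h0 : Tendsto (fun j : ℕ => t + 1 / ((j : ℝ) + 1)) atTop (𝓝 (t + 0)) :=
    tendsto_const_nhds.add tendsto_one_div_add_atTop_nhds_zero_nat
  rw [add_zero] at h0
  refine tendsto_of_tendsto_of_tendsto_of_le_of_le tendsto_const_nhds h0 (fun j => ?_) fun j => ?_
  · have hh : (0 : ℝ) < 1 / ((j : ℝ) + 1) := by positivity
    exact (div_le_iff₀ hh).1 (Int.le_ceil _)
  · have hh : (0 : ℝ) < 1 / ((j : ℝ) + 1) := by positivity
    have := mul_le_mul_of_nonneg_right (Int.ceil_lt_add_one (t / (1 / ((j : ℝ) + 1)))).le hh.le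
    rwa [add_mul, div_mul_cancel₀ _ hh.ne', one_mul] at this

theorem an_meas (ε R : ℝ) : MeasurableSet {t : ℝ | ε < |t| ∧ |t| < R} :=
  (measurableSet_lt measurable_const measurable_abs).inter
    (measurableSet_lt measurable_abs measurable_const)

/-- Riemann sums -/
theorem riemann {F : ℝ → ℂ} (hF : Continuous F) {B : ℝ} (hB : ∀ t, ‖F t‖ ≤ B) {ε R : ℝ}
    (hε : 0 < ε) (hR : ε < R) :
    Tendsto (fun j : ℕ => ∑ n ∈ Finset.Icc (-(⌊R / (1 / ((j : ℝ) + 1))⌋₊ : ℤ))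
        ⌊R / (1 / ((j : ℝ) + 1))⌋₊ with ((⌊ε / (1 / ((j : ℝ) + 1))⌋₊ : ℕ) : ℤ) < |n|,
        F (n * (1 / ((j : ℝ) + 1))) / (n : ℂ)) atTop
      (𝓝 (∫ t in {t : ℝ | ε < |t| ∧ |t| < R}, F t / (t : ℂ))) := by
  have hB0 : 0 ≤ B := (norm_nonneg _).trans (hB 0)
  set G : ℝ → ℂ := {t : ℝ | ε < |t| ∧ |t| ≤ R}.indicator fun t => F t / (t : ℂ) with hG
  have hGm : Measurable G := (hF.measurable.div Complex.measurable_ofReal).indicator
    ((measurableSet_lt measurable_const measurable_abs).inter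
      (measurableSet_le measurable_abs measurable_const))
  have e : ∀ h : ℝ, 0 < h → ∑ n ∈ Finset.Icc (-(⌊R / h⌋₊ : ℤ)) ⌊R / h⌋₊ with
      ((⌊ε / h⌋₊ : ℕ) : ℤ) < |n|, F (n * h) / (n : ℂ) = ∫ t, G (⌈t / h⌉ * h) := by
    intro h hh
    have key : ∀ n : ℤ, n ∈ (Finset.Icc (-(⌊R / h⌋₊ : ℤ)) ⌊R / h⌋₊).filter
        (fun n => ((⌊ε / h⌋₊ : ℕ) : ℤ) < |n|) ↔ ε < |(n : ℝ) * h| ∧ |(n : ℝ) * h| ≤ R := by
      intro n
      rw [Finset.mem_filter, Finset.mem_Icc, ← abs_le, abs_mul, abs_of_pos hh, ← div_lt_iff₀ hh,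
        ← le_div_iff₀ hh, ← Int.cast_abs, ← Int.natCast_natAbs, Nat.cast_le, Nat.cast_lt,
        Int.cast_natCast, Nat.floor_lt (by positivity), Nat.le_floor_iff (by
          exact div_nonneg (hε.trans hR).le hh.le), and_comm]
    rw [step_int G hh _ fun n hn => indicator_of_notMem
      (s := {t : ℝ | ε < |t| ∧ |t| ≤ R}) (fun hc => hn ((key n).2 hc)) _]
    refine Finset.sum_congr rfl fun n hn => ?_
    rw [hG, indicator_of_mem (show (n : ℝ) * h ∈ {t : ℝ | ε < |t| ∧ |t| ≤ R} from (key n).1 hn)]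
    have : (h : ℂ) ≠ 0 := by exact_mod_cast hh.ne'
    push_cast
    rw [mul_comm (n : ℂ) h, ← div_div, mul_div_assoc', mul_div_cancel₀ _ this]
  simp only [e _ (show (0 : ℝ) < 1 / ((_ : ℕ) + 1) by positivity)]
  rw [← integral_indicator (an_meas ε R)]
  refine tendsto_integral_of_dominated_convergence
    ((Icc (-(R + 1)) (R + 1)).indicator fun _ => B / ε) (fun j => ?_) ?_ (fun j => ?_) ?_
  · exact (hGm.comp ((measurable_of_countable ((↑) : ℤ → ℝ)).comp
      (measurable_id.div_const _).ceil |>.mul_const _)).aestronglyMeasurable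
  · exact (integrable_indicator_iff measurableSet_Icc).2 (integrableOn_const (by simp))
  · refine ae_of_all _ fun t => ?_
    have hh : (0 : ℝ) < 1 / ((j : ℝ) + 1) := by positivity
    have hh1 : 1 / ((j : ℝ) + 1) ≤ 1 := by
      rw [div_le_one (by positivity)]; linarith [Nat.cast_nonneg (α := ℝ) j]
    set s : ℝ := (⌈t / (1 / ((j : ℝ) + 1))⌉ : ℝ) * (1 / ((j : ℝ) + 1)) with hs
    by_cases hm : s ∈ {t : ℝ | ε < |t| ∧ |t| ≤ R}
    · have a1 : t ≤ s := (div_le_iff₀ hh).1 (Int.le_ceil _)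
      have a2 := mul_le_mul_of_nonneg_right (Int.ceil_lt_add_one (t / (1 / ((j : ℝ) + 1)))).le hh.le
      rw [add_mul, div_mul_cancel₀ _ hh.ne', one_mul] at a2
      have a3 := abs_le.1 hm.2
      rw [hG, indicator_of_mem hm, indicator_of_mem (show t ∈ Icc (-(R + 1)) (R + 1) from
        ⟨by linarith [a3.1], by linarith [a3.2]⟩), norm_div, Complex.norm_real, Real.norm_eq_abs]
      exact div_le_div₀ hB0 (hB s) hε hm.1.le
    · rw [hG, indicator_of_notMem hm, norm_zero]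
      exact indicator_nonneg (fun _ _ => by positivity) _
  · have hn : ∀ᵐ t : ℝ, t ∉ ({ε, -ε, R, -R} : Set ℝ) :=
      compl_mem_ae_iff.2 ((toFinite _).measure_zero _)
    filter_upwards [hn] with t ht
    have t1 : |t| ≠ ε := fun hc => ht (by
      rcases (abs_eq hε.le).1 hc with h | h <;> simp [h])
    have t2 : |t| ≠ R := fun hc => ht (by
      rcases (abs_eq (hε.trans hR).le).1 hc with h | h <;> simp [h])
    have hc : ContinuousAt G t := by
      by_cases hm : ε < |t| ∧ |t| < R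
      · have t0 : (t : ℂ) ≠ 0 := by
          have : t ≠ 0 := abs_pos.1 (hε.trans hm.1)
          exact_mod_cast this
        refine (hF.continuousAt.div Complex.continuous_ofReal.continuousAt t0).congr ?_
        have o : IsOpen {t : ℝ | ε < |t| ∧ |t| < R} :=
          (isOpen_lt continuous_const continuous_abs).inter (isOpen_lt continuous_abs continuous_const)
        filter_upwards [o.mem_nhds hm] with s hs
        rw [hG, indicator_of_mem (show s ∈ {t : ℝ | ε < |t| ∧ |t| ≤ R} from ⟨hs.1, hs.2.le⟩)]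
        rfl
      · refine (continuousAt_const (y := (0 : ℂ))).congr ?_
        have o : IsOpen ({t : ℝ | |t| < ε} ∪ {t : ℝ | R < |t|}) :=
          (isOpen_lt continuous_abs continuous_const).union (isOpen_lt continuous_const continuous_abs)
        have m : t ∈ {t : ℝ | |t| < ε} ∪ {t : ℝ | R < |t|} := by
          by_contra hc
          simp only [mem_union, mem_ofPred_eq, not_or, not_lt] at hc
          exact hm ⟨lt_of_le_of_ne hc.1 t1.symm, lt_of_le_of_ne hc.2 t2⟩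
        filter_upwards [o.mem_nhds m] with s hs
        rw [hG, indicator_of_notMem]
        rintro ⟨a, b⟩
        rcases hs with hs | hs
        · exact lt_asymm a hs
        · exact not_lt.2 b hs
    have e2 : G t = {t : ℝ | ε < |t| ∧ |t| < R}.indicator (fun t => F t / (t : ℂ)) t := by
      by_cases hm : ε < |t| ∧ |t| < R
      · rw [hG, indicator_of_mem (show t ∈ {t : ℝ | ε < |t| ∧ |t| ≤ R} from ⟨hm.1, hm.2.le⟩),
          indicator_of_mem (show t ∈ {t : ℝ | ε < |t| ∧ |t| < R} from hm)]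
      · rw [hG, indicator_of_notMem (show t ∉ {t : ℝ | ε < |t| ∧ |t| ≤ R} from fun hc =>
          hm ⟨hc.1, lt_of_le_of_ne hc.2 t2⟩),
          indicator_of_notMem (show t ∉ {t : ℝ | ε < |t| ∧ |t| < R} from hm)]
    rw [← e2]
    exact hc.tendsto.comp (ceil_tendsto t)

/-- the product of the three functions along the line through `x` -/
noncomputable def pr (f₁ f₂ f₃ : ℝ → ℂ) (x t : ℝ) : ℂ := f₁ (x - t) * f₂ (x - 2 * t) * f₃ (x - 3 * t)

theorem pr_cont {f₁ f₂ f₃ : ℝ → ℂ} (h₁ : Continuous f₁) (h₂ : Continuous f₂) (h₃ : Continuous f₃) :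
    Continuous fun z : ℝ × ℝ => pr f₁ f₂ f₃ z.1 z.2 := by
  unfold pr
  fun_prop

theorem schw_bd (f : 𝓢(ℝ, ℂ)) : ∃ B : ℝ, ∀ x, ‖f x‖ ≤ B :=
  ⟨_, fun x => f.norm_le_seminorm ℝ x⟩

theorem pr_bd (f₁ f₂ f₃ : 𝓢(ℝ, ℂ)) : ∃ B : ℝ, ∀ x t, ‖pr f₁ f₂ f₃ x t‖ ≤ B := by
  obtain ⟨B₁, h₁⟩ := schw_bd f₁
  obtain ⟨B₂, h₂⟩ := schw_bd f₂
  obtain ⟨B₃, h₃⟩ := schw_bd f₃
  have a := (norm_nonneg _).trans (h₁ 0)
  have b := (norm_nonneg _).trans (h₂ 0)
  refine ⟨B₁ * B₂ * B₃, fun x t => ?_⟩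
  unfold pr
  rw [norm_mul, norm_mul]
  gcongr
  exacts [h₁ _, h₂ _, h₃ _]

theorem trunc_of_erg {p₁ p₂ p₃ r : ℝ≥0∞} (H : ErgBounded p₁ p₂ p₃ r) :
    TruncBounded p₁ p₂ p₃ r := by
  obtain ⟨C, hC, H⟩ := H
  refine ⟨C, hC, fun f₁ f₂ f₃ ε R hε hR => ?_⟩
  obtain ⟨B, hB⟩ := pr_bd f₁ f₂ f₃
  have m₁ := f₁.continuous.measurable
  have m₂ := f₂.continuous.measurable
  have m₃ := f₃.continuous.measurable
  have hS : ∀ h : ℝ, MeasurePreserving (Equiv.subRight h : Equiv.Perm ℝ) volume volume :=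
    fun h => measurePreserving_sub_right volume h
  have hS' : ∀ h : ℝ, Measurable (Equiv.subRight h : Equiv.Perm ℝ).symm :=
    fun h => measurable_add_const h
  refine (Lp.eLpNorm_lim_le_liminf_eLpNorm (f := fun j : ℕ =>
    ergTHT (Equiv.subRight (1 / ((j : ℝ) + 1))) f₁ f₂ f₃ ⌊ε / (1 / ((j : ℝ) + 1))⌋₊
      ⌊R / (1 / ((j : ℝ) + 1))⌋₊) (fun j =>
        (erg_meas (hS _) (hS' _) m₁ m₂ m₃ _ _).aestronglyMeasurable) _
      (ae_of_all _ fun x => ?_)).trans ?_
  · have := riemann (F := pr f₁ f₂ f₃ x) ((pr_cont f₁.continuous f₂.continuous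
      f₃.continuous).comp (Continuous.prodMk_right x)) (hB x) hε hR
    refine this.congr fun j => Finset.sum_congr rfl fun n _ => ?_
    simp only [subRight_zpow, pr, zsmul_eq_mul]
    push_cast
    rw [mul_assoc (2 : ℝ), mul_assoc (3 : ℝ)]
  · exact liminf_le_of_frequently_le' (Frequently.of_forall fun j =>
      H ℝ volume _ (hS _) (hS' _) f₁ f₂ f₃ m₁ m₂ m₃ _ _)

end Vale.Agent.N141W
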