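import Vale.Agent.N141W.Mod
import Mathlib.Analysis.Complex.Hadamard

/-!
# The discrete form: duality, symmetry, interpolation
-/

open MeasureTheory Set Filter Topology
open scoped ENNReal SchwartzMap

namespace Vale.Agent.N141W

open Vale.Agent.P141 Function

theorem fin_norm {f : ℤ → ℂ} (hf : (support f).Finite) (p : ℝ≥0∞) :
    eLpNorm f p Measure.count ≠ ∞ := by
  obtain ⟨B, hB⟩ := (hf.image fun x => ‖f x‖).bddAbove
  refine ((eLpNorm_mono (g := (support f).indicator fun _ => B) fun x => ?_).trans_lt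
    (memLp_indicator_const p hf.measurableSet B
      (Or.inr (Measure.count_apply_lt_top.2 hf).ne)).2).ne
  by_cases hx : x ∈ support f
  · rw [indicator_of_mem hx]
    exact (hB (mem_image_of_mem _ hx)).trans (le_abs_self _)
  · rw [notMem_support.1 hx, norm_zero]
    exact norm_nonneg _

theorem pow_norm {α : Type*} [MeasurableSpace α] {μ : Measure α} {p m : ℝ≥0∞} (hp : p ≠ 0)
    (hm : m ≠ 0) {a : ℝ} (ha : 0 ≤ a)
    (h : (p = m ∧ a = 1) ∨ ((p⁻¹).toReal = a * (m⁻¹).toReal ∧ m ≠ ∞)) {f g : α → ℂ}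
    (hg : ∀ x, ‖g x‖ ≤ ‖f x‖ ^ a) : eLpNorm g p μ ≤ eLpNorm f m μ ^ a := by
  rcases h with ⟨rfl, rfl⟩ | ⟨h, hmt⟩
  · rw [ENNReal.rpow_one]
    exact eLpNorm_mono fun x => by simpa using hg x
  rcases ha.eq_or_lt with rfl | ha
  · rw [zero_mul, ENNReal.toReal_eq_zero_iff, ENNReal.inv_eq_zero, ENNReal.inv_eq_top] at h
    rw [h.resolve_right hp, ENNReal.rpow_zero, eLpNorm_exponent_top]
    refine eLpNormEssSup_le_of_ae_enorm_bound (ae_of_all _ fun x => ?_)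
    rw [← ofReal_norm, ENNReal.ofReal_le_one]
    simpa using hg x
  · have m0 := ENNReal.toReal_pos hm hmt
    have pt : p ≠ ∞ := by
      rintro rfl
      rw [ENNReal.inv_top, ENNReal.toReal_zero, ENNReal.toReal_inv] at h
      exact absurd h (by positivity : 0 < a * m.toReal⁻¹).ne
    have p0 := ENNReal.toReal_pos hp pt
    have e : p * ENNReal.ofReal a = m := by
      rw [← ENNReal.toReal_eq_toReal_iff' (ENNReal.mul_ne_top pt ENNReal.ofReal_ne_top) hmt,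
        ENNReal.toReal_mul, ENNReal.toReal_ofReal ha.le]
      rw [ENNReal.toReal_inv, ENNReal.toReal_inv] at h
      field_simp at h
      linarith
    rw [← e, ← eLpNorm_norm_rpow f ha]
    exact eLpNorm_mono fun x => (hg x).trans (le_abs_self _)

theorem conj_real {p r : ℝ≥0∞} (h : p⁻¹ + r⁻¹ = 1) : (p⁻¹).toReal + (r⁻¹).toReal = 1 := by
  have := ENNReal.add_ne_top.1 (h ▸ ENNReal.one_ne_top : p⁻¹ + r⁻¹ ≠ ∞)
  rw [← ENNReal.toReal_add this.1 this.2, h, ENNReal.toReal_one]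

theorem conj_one_le {p r : ℝ≥0∞} (h : p⁻¹ + r⁻¹ = 1) : 1 ≤ r :=
  ENNReal.inv_le_one.1 (h ▸ le_add_self)

/-- duality in `ℓ^r` -/
theorem dual {p r B : ℝ≥0∞} (h : p⁻¹ + r⁻¹ = 1) (ht : r ≠ ∞) {g : ℤ → ℂ} (hg : (support g).Finite)
    (H : ∀ f : ℤ → ℂ, (support f).Finite →
      ‖∑' x, f x * g x‖ₑ ≤ B * eLpNorm f p Measure.count) : eLpNorm g r Measure.count ≤ B := by
  have r1 := conj_one_le h
  have p1 := conj_one_le (add_comm p⁻¹ _ ▸ h)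
  have r0 : r ≠ 0 := (zero_lt_one.trans_le r1).ne'
  have hρ := ENNReal.toReal_pos r0 ht
  have hρ1 : 1 ≤ r.toReal := by
    rwa [← ENNReal.toReal_le_toReal ENNReal.one_ne_top ht, ENNReal.toReal_one] at r1
  set f : ℤ → ℂ := fun x => (starRingEnd ℂ) (g x) * ((‖g x‖ ^ (r.toReal - 2) : ℝ) : ℂ) with hf
  have e1 : ∀ x, f x * g x = ((‖g x‖ ^ r.toReal : ℝ) : ℂ) := fun x => by
    by_cases hx : g x = 0
    · simp [hx, hρ.ne']
    · rw [hf]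
      simp only
      rw [mul_right_comm, Complex.conj_mul', ← Complex.ofReal_pow, ← Complex.ofReal_mul,
        ← Real.rpow_two, ← Real.rpow_add (norm_pos_iff.2 hx)]
      congr 2
      ring
  have e2 : ∀ x, ‖f x‖ ≤ ‖g x‖ ^ (r.toReal - 1) := fun x => by
    by_cases hx : g x = 0
    · simp only [hf, hx, map_zero, zero_mul, norm_zero]
      positivity
    · rw [hf]
      simp only
      rw [norm_mul, Complex.norm_conj, Complex.norm_real, Real.norm_of_nonneg (by positivity),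
        mul_comm, ← Real.rpow_add_one (norm_ne_zero_iff.2 hx)]
      exact le_of_eq (by congr 1; ring)
  have k := (H f (hg.subset fun x hx h0 => hx (by simp [hf, h0]))).trans (mul_le_mul_right
    (pow_norm (zero_lt_one.trans_le p1).ne' r0 (sub_nonneg.2 hρ1) (Or.inr ⟨by
      have := conj_real h
      rw [ENNReal.toReal_inv r] at this ⊢
      rw [sub_mul, mul_inv_cancel₀ hρ.ne']
      linarith, ht⟩) e2) _)
  have e3 : ‖∑' x, f x * g x‖ₑ = eLpNorm g r Measure.count ^ r.toReal := by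
    rw [eLp_pow r0 ht, lintegral_count, tsum_eq_sum (s := hg.toFinset) fun x hx => by
      rw [notMem_support.1 fun h => hx (hg.mem_toFinset.2 h), mul_zero],
      tsum_eq_sum (s := hg.toFinset) fun x hx => by
        rw [notMem_support.1 fun h => hx (hg.mem_toFinset.2 h), enorm_zero,
          ENNReal.zero_rpow_of_pos hρ]]
    simp only [e1]
    rw [← Complex.ofReal_sum, ← ofReal_norm, Complex.norm_real,
      Real.norm_of_nonneg (Finset.sum_nonneg fun _ _ => by positivity),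
      ENNReal.ofReal_sum_of_nonneg fun _ _ => by positivity]
    exact Finset.sum_congr rfl fun x _ => by
      rw [← ENNReal.ofReal_rpow_of_nonneg (norm_nonneg _) hρ.le, ofReal_norm]
  rw [e3] at k
  have nt := fin_norm hg r
  rcases eq_or_ne (eLpNorm g r Measure.count) 0 with n0 | n0
  · rw [n0]
    exact zero_le
  refine (ENNReal.mul_le_mul_iff_left (ENNReal.rpow_pos n0.bot_lt nt).ne'
    (ENNReal.rpow_ne_top_of_nonneg (sub_nonneg.2 hρ1) nt)).1 (le_trans (le_of_eq ?_) k)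
  nth_rewrite 1 [← ENNReal.rpow_one (eLpNorm g r Measure.count)]
  rw [← ENNReal.rpow_add _ _ n0 nt, add_sub_cancel]

/-- the form -/
noncomputable def Lam (f₀ f₁ f₂ f₃ : ℤ → ℂ) (M N : ℕ) : ℂ := ∑' x, f₀ x * dH f₁ f₂ f₃ M N x

/-- the bound for the form -/
def FormB (p₀ p₁ p₂ p₃ : ℝ≥0∞) : Prop :=
  ∃ C : ℝ≥0∞, C < ∞ ∧ ∀ (f₀ f₁ f₂ f₃ : ℤ → ℂ), (support f₀).Finite → (support f₁).Finite →
    (support f₂).Finite → (support f₃).Finite → ∀ M N : ℕ, ‖Lam f₀ f₁ f₂ f₃ M N‖ₑ ≤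
      C * eLpNorm f₀ p₀ Measure.count * eLpNorm f₁ p₁ Measure.count *
        eLpNorm f₂ p₂ Measure.count * eLpNorm f₃ p₃ Measure.count

theorem form_of_disc {p₀ p₁ p₂ p₃ r : ℝ≥0∞} (h : p₀⁻¹ + r⁻¹ = 1) (H : DiscFin p₁ p₂ p₃ r) :
    FormB p₀ p₁ p₂ p₃ := by
  obtain ⟨C, hC, H⟩ := H
  refine ⟨C, hC, fun f₀ f₁ f₂ f₃ _ s₁ s₂ s₃ M N => enorm_tsum_le_tsum_enorm.trans ?_⟩
  have : ENNReal.HolderTriple p₀ r 1 := ⟨by rw [h, inv_one]⟩
  have k := eLpNorm_smul_le_mul_eLpNorm (μ := Measure.count) (p := p₀) (q := r) (r := 1)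
    (measurable_of_countable (dH f₁ f₂ f₃ M N)).aestronglyMeasurable
    (measurable_of_countable f₀).aestronglyMeasurable
  rw [eLpNorm_one_eq_lintegral_enorm, lintegral_count] at k
  exact (k.trans (mul_le_mul_right (H f₁ f₂ f₃ s₁ s₂ s₃ M N) _)).trans (le_of_eq (by ring))

theorem dH_fin {f₁ : ℤ → ℂ} (s₁ : (support f₁).Finite) (f₂ f₃ : ℤ → ℂ) (M N : ℕ) :
    (support (dH f₁ f₂ f₃ M N)).Finite := by
  refine ((s₁.prod (Finset.Icc (-(N : ℤ)) N).finite_toSet).image fun z => z.1 + z.2).subset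
    fun x hx => ?_
  obtain ⟨n, hn, h0⟩ := Finset.exists_ne_zero_of_sum_ne_zero hx
  exact ⟨(x - n, n), ⟨fun h => h0 (by simp only at h; rw [h]; simp),
    (Finset.mem_filter.1 hn).1⟩, sub_add_cancel _ _⟩

theorem disc_of_form {p₀ p₁ p₂ p₃ r : ℝ≥0∞} (h : p₀⁻¹ + r⁻¹ = 1) (ht : r ≠ ∞)
    (H : FormB p₀ p₁ p₂ p₃) : DiscFin p₁ p₂ p₃ r := by
  obtain ⟨C, hC, H⟩ := H
  exact ⟨C, hC, fun f₁ f₂ f₃ s₁ s₂ s₃ M N => dual h ht (dH_fin s₁ f₂ f₃ M N) fun f₀ s₀ =>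
    (H f₀ f₁ f₂ f₃ s₀ s₁ s₂ s₃ M N).trans (le_of_eq (by ring))⟩

theorem Lam_symm {f₀ f₃ : ℤ → ℂ} (s₀ : (support f₀).Finite) (s₃ : (support f₃).Finite)
    (f₁ f₂ : ℤ → ℂ) (M N : ℕ) : Lam f₃ f₂ f₁ f₀ M N = -Lam f₀ f₁ f₂ f₃ M N := by
  have e : ∀ {g₀ : ℤ → ℂ}, (support g₀).Finite → ∀ g₁ g₂ g₃ : ℤ → ℂ, Lam g₀ g₁ g₂ g₃ M N =
      ∑ n ∈ Finset.Icc (-(N : ℤ)) N with (M : ℤ) < |n|,
        ∑' x, g₀ x * (g₁ (x - n) * g₂ (x - 2 * n) * g₃ (x - 3 * n) / (n : ℂ)) := by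
    intro g₀ s g₁ g₂ g₃
    simp only [Lam, dH, Finset.mul_sum]
    exact Summable.tsum_finsetSum fun n _ => summable_of_hasFiniteSupport
      (s.subset fun x hx h0 => hx (by simp only [h0, zero_mul]))
  rw [e s₀, e s₃, ← Finset.sum_neg_distrib]
  refine Finset.sum_nbij' (fun n => -n) (fun n => -n) ?_ ?_ (fun _ _ => neg_neg _)
    (fun _ _ => neg_neg _) fun n _ => ?_
  iterate 2
    intro n hn
    simp only [Finset.mem_filter, Finset.mem_Icc, abs_neg] at hn ⊢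
    exact ⟨⟨by omega, by omega⟩, hn.2⟩
  rw [← tsum_neg, ← (Equiv.addRight (3 * n)).tsum_eq]
  refine tsum_congr fun x => ?_
  simp only [Equiv.coe_addRight]
  rw [show x + 3 * n - n = x - 2 * -n by ring, show x + 3 * n - 2 * n = x - -n by ring,
    show x + 3 * n - 3 * n = x by ring, show x + 3 * n = x - 3 * -n by ring]
  push_cast
  rw [div_neg]
  ring

theorem FormB.symm {p₀ p₁ p₂ p₃ : ℝ≥0∞} (H : FormB p₀ p₁ p₂ p₃) : FormB p₃ p₂ p₁ p₀ := by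
  obtain ⟨C, hC, H⟩ := H
  refine ⟨C, hC, fun f₃ f₂ f₁ f₀ s₃ s₂ s₁ s₀ M N => ?_⟩
  rw [Lam_symm s₀ s₃, enorm_neg]
  exact (H f₀ f₁ f₂ f₃ s₀ s₁ s₂ s₃ M N).trans (le_of_eq (by ring))

/-- the analytic family -/
noncomputable def af (f : ℤ → ℂ) (a b : ℝ) (z : ℂ) (x : ℤ) : ℂ :=
  f x * Complex.exp (((1 - z) * a + z * b - 1) * (Real.log ‖f x‖ : ℝ))

theorem af_le (f : ℤ → ℂ) (a b : ℝ) (z : ℂ) (x : ℤ) :
    ‖af f a b z x‖ ≤ ‖f x‖ ^ ((1 - z.re) * a + z.re * b) := by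
  unfold af
  by_cases hx : f x = 0
  · rw [hx, zero_mul, norm_zero]
    positivity
  · have := norm_pos_iff.2 hx
    rw [norm_mul, Complex.norm_exp, Complex.re_mul_ofReal, mul_comm _ (Real.log _),
      ← Real.rpow_def_of_pos this, mul_comm, ← Real.rpow_add_one this.ne']
    refine le_of_eq ?_
    congr 1
    simp

theorem af_fin {f : ℤ → ℂ} (s : (support f).Finite) (a b : ℝ) (z : ℂ) :
    (support (af f a b z)).Finite :=
  s.subset fun x hx h0 => hx (by simp only [af, h0, zero_mul])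

theorem af_diff (f : ℤ → ℂ) (a b : ℝ) (x : ℤ) : Differentiable ℂ fun z => af f a b z x := by
  unfold af
  fun_prop

theorem af_bd (f : ℤ → ℂ) (a b : ℝ) (x : ℤ) {z : ℂ} (hz : z.re ∈ Icc (0 : ℝ) 1) :
    ‖af f a b z x‖ ≤ ‖f x‖ * Real.exp ((|a| + |b| + 1) * |Real.log ‖f x‖|) := by
  unfold af
  rw [norm_mul, Complex.norm_exp, Complex.re_mul_ofReal]
  refine mul_le_mul_of_nonneg_left (Real.exp_le_exp.2 ((le_abs_self _).trans ?_)) (norm_nonneg _)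
  rw [abs_mul]
  refine mul_le_mul_of_nonneg_right ?_ (abs_nonneg _)
  have e : (((1 - z) * a + z * b - 1 : ℂ)).re = (1 - z.re) * a + z.re * b - 1 := by simp
  rw [e, abs_le]
  constructor <;> nlinarith [hz.1, hz.2, le_abs_self a, neg_abs_le a, le_abs_self b, neg_abs_le b,
    abs_nonneg a, abs_nonneg b]

theorem exps {p q m : ℝ≥0∞} (hp : p ≠ 0) (hq : q ≠ 0) (hm : m ≠ 0) {θ : ℝ} (h0 : 0 < θ)
    (h1 : θ < 1) (h : (m⁻¹).toReal = (1 - θ) * (p⁻¹).toReal + θ * (q⁻¹).toReal) :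
    ∃ a b : ℝ, (1 - θ) * a + θ * b = 1 ∧ ∀ f : ℤ → ℂ, ∀ z : ℂ,
      (z.re = 0 → eLpNorm (af f a b z) p Measure.count ≤ eLpNorm f m Measure.count ^ a) ∧
      (z.re = 1 → eLpNorm (af f a b z) q Measure.count ≤ eLpNorm f m Measure.count ^ b) ∧
      0 ≤ a ∧ 0 ≤ b := by
  have u : 0 ≤ (p⁻¹).toReal := ENNReal.toReal_nonneg
  have v : 0 ≤ (q⁻¹).toReal := ENNReal.toReal_nonneg
  rcases eq_or_ne m ∞ with rfl | ht
  · rw [ENNReal.inv_top, ENNReal.toReal_zero] at h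
    have z : ∀ {p : ℝ≥0∞}, p ≠ 0 → (p⁻¹).toReal = 0 → p = ∞ := fun hp h => by
      rw [ENNReal.toReal_eq_zero_iff, ENNReal.inv_eq_zero, ENNReal.inv_eq_top] at h
      exact h.resolve_right hp
    have a := z hp (by nlinarith [mul_nonneg h0.le v])
    have b := z hq (by nlinarith [mul_nonneg (sub_nonneg.2 h1.le) u])
    exact ⟨1, 1, by ring, fun f z => ⟨fun hz => pow_norm hp hm zero_le_one (Or.inl ⟨a, rfl⟩)
      fun x => by simpa [hz] using af_le f 1 1 z x, fun hz => pow_norm hq hm zero_le_one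
        (Or.inl ⟨b, rfl⟩) fun x => by simpa [hz] using af_le f 1 1 z x, zero_le_one, zero_le_one⟩⟩
  · have w : 0 < (m⁻¹).toReal := ENNReal.toReal_pos (ENNReal.inv_ne_zero.2 ht)
      (ENNReal.inv_ne_top.2 hm)
    refine ⟨(p⁻¹).toReal / (m⁻¹).toReal, (q⁻¹).toReal / (m⁻¹).toReal, by
      field_simp
      linarith, fun f z => ⟨fun hz => pow_norm hp hm (by positivity)
        (Or.inr ⟨(div_mul_cancel₀ _ w.ne').symm, ht⟩) fun x => ?_, fun hz => pow_norm hq hm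
          (by positivity) (Or.inr ⟨(div_mul_cancel₀ _ w.ne').symm, ht⟩) fun x => ?_,
      by positivity, by positivity⟩⟩
    · have := af_le f ((p⁻¹).toReal / (m⁻¹).toReal) ((q⁻¹).toReal / (m⁻¹).toReal) z x
      rwa [hz, sub_zero, one_mul, zero_mul, add_zero] at this
    · have := af_le f ((p⁻¹).toReal / (m⁻¹).toReal) ((q⁻¹).toReal / (m⁻¹).toReal) z x
      rwa [hz, sub_self, one_mul, zero_mul, zero_add] at this

/-- **Riesz–Thorin** for the form -/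
theorem FormB.interp {p₀ p₁ p₂ p₃ q₀ q₁ q₂ q₃ m₀ m₁ m₂ m₃ : ℝ≥0∞} {θ : ℝ} (h0 : 0 < θ) (h1 : θ < 1)
    (hp : p₀ ≠ 0 ∧ p₁ ≠ 0 ∧ p₂ ≠ 0 ∧ p₃ ≠ 0) (hq : q₀ ≠ 0 ∧ q₁ ≠ 0 ∧ q₂ ≠ 0 ∧ q₃ ≠ 0)
    (hm : m₀ ≠ 0 ∧ m₁ ≠ 0 ∧ m₂ ≠ 0 ∧ m₃ ≠ 0)
    (e₀ : (m₀⁻¹).toReal = (1 - θ) * (p₀⁻¹).toReal + θ * (q₀⁻¹).toReal)
    (e₁ : (m₁⁻¹).toReal = (1 - θ) * (p₁⁻¹).toReal + θ * (q₁⁻¹).toReal)
    (e₂ : (m₂⁻¹).toReal = (1 - θ) * (p₂⁻¹).toReal + θ * (q₂⁻¹).toReal)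
    (e₃ : (m₃⁻¹).toReal = (1 - θ) * (p₃⁻¹).toReal + θ * (q₃⁻¹).toReal)
    (P : FormB p₀ p₁ p₂ p₃) (Q : FormB q₀ q₁ q₂ q₃) : FormB m₀ m₁ m₂ m₃ := by
  obtain ⟨C, hC, P⟩ := P
  obtain ⟨D, hD, Q⟩ := Q
  obtain ⟨a₀, b₀, t₀, k₀⟩ := exps hp.1 hq.1 hm.1 h0 h1 e₀
  obtain ⟨a₁, b₁, t₁, k₁⟩ := exps hp.2.1 hq.2.1 hm.2.1 h0 h1 e₁
  obtain ⟨a₂, b₂, t₂, k₂⟩ := exps hp.2.2.1 hq.2.2.1 hm.2.2.1 h0 h1 e₂
  obtain ⟨a₃, b₃, t₃, k₃⟩ := exps hp.2.2.2 hq.2.2.2 hm.2.2.2 h0 h1 e₃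
  have θ1 : 0 ≤ 1 - θ := by linarith
  refine ⟨C ^ (1 - θ) * D ^ θ, ENNReal.mul_lt_top (ENNReal.rpow_lt_top_of_nonneg θ1 hC.ne)
    (ENNReal.rpow_lt_top_of_nonneg h0.le hD.ne), fun f₀ f₁ f₂ f₃ s₀ s₁ s₂ s₃ M N => ?_⟩
  set Φ : ℂ → ℂ := fun z =>
    Lam (af f₀ a₀ b₀ z) (af f₁ a₁ b₁ z) (af f₂ a₂ b₂ z) (af f₃ a₃ b₃ z) M N with hΦ
  have eΦ : Φ = fun z => ∑ x ∈ s₀.toFinset, af f₀ a₀ b₀ z x *
      ∑ n ∈ Finset.Icc (-(N : ℤ)) N with (M : ℤ) < |n|, af f₁ a₁ b₁ z (x - n) *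
        af f₂ a₂ b₂ z (x - 2 * n) * af f₃ a₃ b₃ z (x - 3 * n) / (n : ℂ) := by
    funext z
    exact tsum_eq_sum fun x hx => by
      simp only [af, notMem_support.1 fun h => hx (s₀.mem_toFinset.2 h), zero_mul]
  have hd : Differentiable ℂ Φ := by
    rw [eΦ]
    exact Differentiable.fun_sum fun x _ => (af_diff _ _ _ _).mul (Differentiable.fun_sum fun n _ =>
      (((af_diff _ _ _ _).mul (af_diff _ _ _ _)).mul (af_diff _ _ _ _)).div_const _)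
  have hb : BddAbove (norm ∘ Φ '' Complex.HadamardThreeLines.verticalClosedStrip 0 1) := by
    set w : (ℤ → ℂ) → ℝ → ℝ → ℤ → ℝ := fun f a b x =>
      ‖f x‖ * Real.exp ((|a| + |b| + 1) * |Real.log ‖f x‖|) with hw
    refine ⟨∑ x ∈ s₀.toFinset, w f₀ a₀ b₀ x * ∑ n ∈ Finset.Icc (-(N : ℤ)) N with (M : ℤ) < |n|,
      w f₁ a₁ b₁ (x - n) * w f₂ a₂ b₂ (x - 2 * n) * w f₃ a₃ b₃ (x - 3 * n) / ‖(n : ℂ)‖, ?_⟩
    rintro _ ⟨z, hz, rfl⟩
    rw [eΦ]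
    refine (norm_sum_le _ _).trans (Finset.sum_le_sum fun x _ => ?_)
    rw [norm_mul]
    refine mul_le_mul (af_bd _ _ _ _ hz) ((norm_sum_le _ _).trans (Finset.sum_le_sum fun n _ => ?_))
      (norm_nonneg _) (by positivity)
    rw [norm_div, norm_mul, norm_mul]
    gcongr
    exacts [af_bd _ _ _ _ hz, af_bd _ _ _ _ hz, af_bd _ _ _ _ hz]
  have n₀ := fin_norm s₀ m₀
  have n₁ := fin_norm s₁ m₁
  have n₂ := fin_norm s₂ m₂
  have n₃ := fin_norm s₃ m₃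
  set N₀ := eLpNorm f₀ m₀ Measure.count
  set N₁ := eLpNorm f₁ m₁ Measure.count
  set N₂ := eLpNorm f₂ m₂ Measure.count
  set N₃ := eLpNorm f₃ m₃ Measure.count
  obtain ⟨-, -, x₀, y₀⟩ := k₀ f₀ 0
  obtain ⟨-, -, x₁, y₁⟩ := k₁ f₀ 0
  obtain ⟨-, -, x₂, y₂⟩ := k₂ f₀ 0
  obtain ⟨-, -, x₃, y₃⟩ := k₃ f₀ 0
  have fin : ∀ {C : ℝ≥0∞} {a b c d : ℝ}, C < ∞ → 0 ≤ a → 0 ≤ b → 0 ≤ c → 0 ≤ d →
      C * N₀ ^ a * N₁ ^ b * N₂ ^ c * N₃ ^ d ≠ ∞ := fun hC a b c d =>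
    ENNReal.mul_ne_top (ENNReal.mul_ne_top (ENNReal.mul_ne_top (ENNReal.mul_ne_top hC.ne
      (ENNReal.rpow_ne_top_of_nonneg a n₀)) (ENNReal.rpow_ne_top_of_nonneg b n₁))
      (ENNReal.rpow_ne_top_of_nonneg c n₂)) (ENNReal.rpow_ne_top_of_nonneg d n₃)
  have fa := fin hC x₀ x₁ x₂ x₃
  have fb := fin hD y₀ y₁ y₂ y₃
  have key := Complex.HadamardThreeLines.norm_le_interp_of_mem_verticalClosedStrip₀₁' Φ (z := θ)
    (a := (C * N₀ ^ a₀ * N₁ ^ a₁ * N₂ ^ a₂ * N₃ ^ a₃).toReal)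
    (b := (D * N₀ ^ b₀ * N₁ ^ b₁ * N₂ ^ b₂ * N₃ ^ b₃).toReal) ⟨h0.le, h1.le⟩ hd.diffContOnCl hb
    (fun z hz => by
      rw [← ENNReal.ofReal_le_iff_le_toReal fa, ofReal_norm]
      refine (P _ _ _ _ (af_fin s₀ _ _ _) (af_fin s₁ _ _ _) (af_fin s₂ _ _ _) (af_fin s₃ _ _ _)
        M N).trans ?_
      gcongr
      exacts [(k₀ f₀ z).1 hz, (k₁ f₁ z).1 hz, (k₂ f₂ z).1 hz, (k₃ f₃ z).1 hz])
    (fun z hz => by
      rw [← ENNReal.ofReal_le_iff_le_toReal fb, ofReal_norm]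
      refine (Q _ _ _ _ (af_fin s₀ _ _ _) (af_fin s₁ _ _ _) (af_fin s₂ _ _ _) (af_fin s₃ _ _ _)
        M N).trans ?_
      gcongr
      exacts [(k₀ f₀ z).2.1 hz, (k₁ f₁ z).2.1 hz, (k₂ f₂ z).2.1 hz, (k₃ f₃ z).2.1 hz])
  have ea : ∀ (f : ℤ → ℂ) {a b : ℝ}, (1 - θ) * a + θ * b = 1 → af f a b θ = f := fun f a b h => by
    funext x
    have : ((1 - θ) * a + θ * b - 1 : ℂ) = 0 := by exact_mod_cast sub_eq_zero.2 h
    rw [af, this, zero_mul, Complex.exp_zero, mul_one]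
  simp only [hΦ, ea _ t₀, ea _ t₁, ea _ t₂, ea _ t₃, Complex.ofReal_re] at key
  rw [← ofReal_norm]
  refine (ENNReal.ofReal_le_ofReal key).trans (le_of_eq ?_)
  rw [ENNReal.ofReal_mul (by positivity), ← ENNReal.ofReal_rpow_of_nonneg ENNReal.toReal_nonneg θ1,
    ← ENNReal.ofReal_rpow_of_nonneg ENNReal.toReal_nonneg h0.le, ENNReal.ofReal_toReal fa,
    ENNReal.ofReal_toReal fb]
  simp only [ENNReal.mul_rpow_of_nonneg _ _ θ1, ENNReal.mul_rpow_of_nonneg _ _ h0.le,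
    ← ENNReal.rpow_mul]
  have j : ∀ (X : ℝ≥0∞) {a b : ℝ}, 0 ≤ a → 0 ≤ b → (1 - θ) * a + θ * b = 1 →
      X ^ (a * (1 - θ)) * X ^ (b * θ) = X := fun X a b ha hb h => by
    rw [← ENNReal.rpow_add_of_nonneg _ _ (by positivity) (by positivity),
      show a * (1 - θ) + b * θ = 1 by linarith, ENNReal.rpow_one]
  calc _ = C ^ (1 - θ) * D ^ θ * (N₀ ^ (a₀ * (1 - θ)) * N₀ ^ (b₀ * θ)) *
        (N₁ ^ (a₁ * (1 - θ)) * N₁ ^ (b₁ * θ)) * (N₂ ^ (a₂ * (1 - θ)) * N₂ ^ (b₂ * θ)) *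
        (N₃ ^ (a₃ * (1 - θ)) * N₃ ^ (b₃ * θ)) := by ring
    _ = _ := by rw [j _ x₀ y₀ t₀, j _ x₁ y₁ t₁, j _ x₂ y₂ t₂, j _ x₃ y₃ t₃]

end Vale.Agent.N141W
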