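import Vale.Agent.N141W.Muck
import Vale.Agent.N141.MaxDef

/-!
# Weighted and vector-valued estimates from the domination by maximal functions
-/

open MeasureTheory Set Filter Topology
open scoped ENNReal SchwartzMap

namespace Vale.Agent.N141W

open Vale.Agent.P141 Vale.Agent.N141

/-- the domination by maximal functions -/
def Dom (ρ : ℝ) (C : ℝ≥0∞) (S f₁ f₂ f₃ : ℝ → ℂ) : Prop :=
  ∀ g : ℝ → ℂ, Measurable g → ∫⁻ x, ‖g x * S x‖ₑ ^ ρ ≤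
    C * ∫⁻ x, (M2 g x * M2 f₁ x * M2 f₂ x * M2 f₃ x) ^ ρ

/-- the domination for `T` and its truncations -/
def DomAll : Prop := ∀ ρ : ℝ, 0 < ρ → ρ ≤ 1 → ∃ C : ℝ≥0∞, C < ∞ ∧
  ∀ (f₁ f₂ f₃ : 𝓢(ℝ, ℂ)) (S : ℝ → ℂ), IsT f₁ f₂ f₃ S → Dom ρ C S f₁ f₂ f₃

theorem IsT.meas {f₁ f₂ f₃ : 𝓢(ℝ, ℂ)} {S : ℝ → ℂ} (h : IsT f₁ f₂ f₃ S) : Measurable S := by
  rcases h with rfl | ⟨ε, R, -, -, rfl⟩
  exacts [tht_meas _ _ _, trunc_meas f₁.continuous f₂.continuous f₃.continuous _ _]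

/-- the maximal function of the square -/
noncomputable def N2 (f : ℝ → ℂ) : ℝ → ℝ≥0∞ := Mx volume fun y => ‖f y‖ₑ ^ (2 : ℝ)

theorem N2_meas (f : ℝ → ℂ) : Measurable (N2 f) := Mx_meas _ _

theorem M2_le (f : ℝ → ℂ) (x : ℝ) : M2 f x ≤ N2 f x ^ (1 / 2 : ℝ) := by
  refine iSup_le fun a => iSup_le fun b => iSup_le fun h1 => iSup_le fun h2 =>
    ENNReal.rpow_le_rpow (le_trans (le_of_eq ?_) (avg_le_Mx _ _ ⟨h1, h2⟩)) (by norm_num)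
  simp only [avg, Real.volume_Ioo, ENNReal.rpow_two]

theorem M2_pow (f : ℝ → ℂ) (x : ℝ) {p ρ : ℝ} (hp : 0 < p) (hρ : 0 < ρ) :
    M2 f x ^ ρ ≤ (N2 f x ^ (p / 2)) ^ (ρ / p) := by
  refine (ENNReal.rpow_le_rpow (M2_le f x) hρ.le).trans (le_of_eq ?_)
  rw [← ENNReal.rpow_mul, ← ENNReal.rpow_mul]
  congr 1
  field_simp

theorem holder4 {α : Type*} [MeasurableSpace α] (μ : Measure α) {F₀ F₁ F₂ F₃ : α → ℝ≥0∞}
    (m₀ : Measurable F₀) (m₁ : Measurable F₁) (m₂ : Measurable F₂) (m₃ : Measurable F₃)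
    {a b c d : ℝ} (ha : 0 ≤ a) (hb : 0 ≤ b) (hc : 0 ≤ c) (hd : 0 ≤ d) (h : a + b + c + d = 1) :
    ∫⁻ x, F₀ x ^ a * F₁ x ^ b * F₂ x ^ c * F₃ x ^ d ∂μ ≤
      (∫⁻ x, F₀ x ∂μ) ^ a * (∫⁻ x, F₁ x ∂μ) ^ b * (∫⁻ x, F₂ x ∂μ) ^ c * (∫⁻ x, F₃ x ∂μ) ^ d := by
  have key := ENNReal.lintegral_prod_norm_pow_le (μ := μ) (Finset.univ : Finset (Fin 4))
    (f := ![F₀, F₁, F₂, F₃]) (fun i _ => by
      fin_cases i
      exacts [m₀.aemeasurable, m₁.aemeasurable, m₂.aemeasurable, m₃.aemeasurable])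
    (p := ![a, b, c, d]) (by simpa [Fin.sum_univ_four] using h)
    (fun i _ => by fin_cases i <;> simpa)
  simpa only [Fin.prod_univ_four, Matrix.cons_val_zero, Matrix.cons_val_one,
    Matrix.cons_val] using key

theorem muck2 {p : ℝ} (hp : 2 < p) {w : ℝ → ℝ≥0∞} (h : IsAp (p / 2) w) : ∃ c : ℝ≥0∞, c ≠ ∞ ∧
    ∀ f : ℝ → ℂ, Measurable f → ∫⁻ x, N2 f x ^ (p / 2) * w x ≤ c * ∫⁻ x, ‖f x‖ₑ ^ p * w x := by
  obtain ⟨m, pw, K, hK, H⟩ := h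
  obtain ⟨c, ct, M⟩ := muck (q := p / 2) (by linarith) hK.ne
  refine ⟨c, ct, fun f hf => (M w pw m (fun a b hab => by
    simpa only [setLAverage_eq, avg] using H a b hab) _ (hf.enorm.pow_const _)).trans (le_of_eq ?_)⟩
  simp only [← ENNReal.rpow_mul, show 2 * (p / 2) = p by ring]

theorem fs2 {p s : ℝ} (hp : 2 < p) (hs : 2 < s) : ∃ c : ℝ≥0∞, c ≠ ∞ ∧ ∀ f : ℕ → ℝ → ℂ,
    (∀ k, Measurable (f k)) → ∫⁻ x, (∑' k, N2 (f k) x ^ (s / 2)) ^ (p / s) ≤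
      c * ∫⁻ x, (∑' k, ‖f k x‖ₑ ^ s) ^ (p / s) := by
  obtain ⟨c, ct, H⟩ := fs (p := p / 2) (s := s / 2) (by linarith) (by linarith)
  refine ⟨c, ct, fun f hf => ?_⟩
  have := H (fun k y => ‖f k y‖ₑ ^ (2 : ℝ)) fun k => (hf k).enorm.pow_const _
  simpa only [N2, ← ENNReal.rpow_mul, show 2 * (s / 2) = s by ring,
    show p / 2 / (s / 2) = p / s by field_simp] using this

theorem enorm_toReal {x : ℝ≥0∞} (h : x ≠ ∞) : ‖((x.toReal : ℝ) : ℂ)‖ₑ = x := by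
  rw [← ofReal_norm, Complex.norm_real, Real.norm_of_nonneg ENNReal.toReal_nonneg,
    ENNReal.ofReal_toReal h]

theorem finish {X C c₀ c₁ c₂ c₃ I₁ I₂ I₃ : ℝ≥0∞} {ρ q r p₁ p₂ p₃ : ℝ} (hρ : 0 < ρ) (hq : 0 < q)
    (hr : 0 < r) (h₁ : 0 < p₁) (h₂ : 0 < p₂) (h₃ : 0 < p₃) (e : ρ / q + ρ / r = 1) (hX : X ≠ ∞)
    (h : X ≤ C * ((c₀ * X) ^ (ρ / q) * (c₁ * I₁) ^ (ρ / p₁) * (c₂ * I₂) ^ (ρ / p₂) *
      (c₃ * I₃) ^ (ρ / p₃))) :
    X ≤ (C ^ (1 / ρ) * c₀ ^ (1 / q) * c₁ ^ (1 / p₁) * c₂ ^ (1 / p₂) * c₃ ^ (1 / p₃) *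
      I₁ ^ (1 / p₁) * I₂ ^ (1 / p₂) * I₃ ^ (1 / p₃)) ^ r := by
  have k := absorb (A := (C ^ (1 / ρ) * c₀ ^ (1 / q) * c₁ ^ (1 / p₁) * c₂ ^ (1 / p₂) *
    c₃ ^ (1 / p₃) * I₁ ^ (1 / p₁) * I₂ ^ (1 / p₂) * I₃ ^ (1 / p₃)) ^ ρ) (θ := ρ / q)
    (by linarith [div_pos hρ hr]) hX (h.trans (le_of_eq (by
      simp only [ENNReal.mul_rpow_of_nonneg _ _ hρ.le, ← ENNReal.rpow_mul, one_div_mul_eq_div,
        ENNReal.mul_rpow_of_nonneg _ _ (div_pos hρ hq).le, div_self hρ.ne', ENNReal.rpow_one,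
        ENNReal.mul_rpow_of_nonneg _ _ (div_pos hρ h₁).le,
        ENNReal.mul_rpow_of_nonneg _ _ (div_pos hρ h₂).le,
        ENNReal.mul_rpow_of_nonneg _ _ (div_pos hρ h₃).le]
      ring)))
  rwa [← ENNReal.rpow_mul, show 1 - ρ / q = ρ / r by linarith, inv_div,
    mul_div_cancel₀ _ hρ.ne'] at k

theorem fin5 {C c₀ c₁ c₂ c₃ : ℝ≥0∞} {ρ q p₁ p₂ p₃ : ℝ} (hρ : 0 < ρ) (hq : 0 < q) (h₁ : 0 < p₁)
    (h₂ : 0 < p₂) (h₃ : 0 < p₃) (hC : C ≠ ∞) (t₀ : c₀ ≠ ∞) (t₁ : c₁ ≠ ∞) (t₂ : c₂ ≠ ∞)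
    (t₃ : c₃ ≠ ∞) :
    C ^ (1 / ρ) * c₀ ^ (1 / q) * c₁ ^ (1 / p₁) * c₂ ^ (1 / p₂) * c₃ ^ (1 / p₃) < ∞ := by
  have k : ∀ {c : ℝ≥0∞} {p : ℝ}, 0 < p → c ≠ ∞ → c ^ (1 / p) < ∞ := fun hp hc =>
    ENNReal.rpow_lt_top_of_nonneg (by positivity) hc
  exact ENNReal.mul_lt_top (ENNReal.mul_lt_top (ENNReal.mul_lt_top (ENNReal.mul_lt_top (k hρ hC)
    (k hq t₀)) (k h₁ t₁)) (k h₂ t₂)) (k h₃ t₃)

/-- **weighted estimates** -/
theorem weighted (HD : DomAll) {p₁ p₂ p₃ q r : ℝ} (h₁ : 2 < p₁) (h₂ : 2 < p₂) (h₃ : 2 < p₃)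
    (hq : 2 < q) (hr : 1 / r = 1 / p₁ + 1 / p₂ + 1 / p₃) (hqr : 1 ≤ 1 / q + 1 / r)
    {w₁ w₂ w₃ : ℝ → ℝ≥0∞} (a₁ : IsAp (p₁ / 2) w₁) (a₂ : IsAp (p₂ / 2) w₂) (a₃ : IsAp (p₃ / 2) w₃)
    (a₀ : IsAp (q / 2) fun x => (w₁ x ^ (1 / p₁) * w₂ x ^ (1 / p₂) * w₃ x ^ (1 / p₃)) ^ (-q)) :
    ∃ C : ℝ≥0∞, C < ∞ ∧ ∀ (f₁ f₂ f₃ : 𝓢(ℝ, ℂ)) (S : ℝ → ℂ), IsT f₁ f₂ f₃ S →
      (∫⁻ x, (‖S x‖ₑ * (w₁ x ^ (1 / p₁) * w₂ x ^ (1 / p₂) * w₃ x ^ (1 / p₃))) ^ r) ^ (1 / r) ≤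
        C * (∫⁻ x, ‖f₁ x‖ₑ ^ p₁ * w₁ x) ^ (1 / p₁) * (∫⁻ x, ‖f₂ x‖ₑ ^ p₂ * w₂ x) ^ (1 / p₂) *
          (∫⁻ x, ‖f₃ x‖ₑ ^ p₃ * w₃ x) ^ (1 / p₃) := by
  have z₁ : 0 < p₁ := by linarith
  have z₂ : 0 < p₂ := by linarith
  have z₃ : 0 < p₃ := by linarith
  have q0 : 0 < q := by linarith
  have r0 : 0 < r := one_div_pos.1 (by rw [hr]; positivity)
  obtain ⟨ρ, ρ0, ρ1, e⟩ : ∃ ρ : ℝ, 0 < ρ ∧ ρ ≤ 1 ∧ ρ / q + ρ / r = 1 :=
    ⟨(1 / q + 1 / r)⁻¹, by positivity, inv_le_one_of_one_le₀ hqr, by field_simp⟩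
  have e4 : ρ / q + ρ / p₁ + ρ / p₂ + ρ / p₃ = 1 := by
    have : ρ / r = ρ / p₁ + ρ / p₂ + ρ / p₃ := by
      simp only [div_eq_mul_one_div ρ]
      rw [hr]
      ring
    linarith
  obtain ⟨C, hC, HD⟩ := HD ρ ρ0 ρ1
  obtain ⟨c₀, t₀, M₀⟩ := muck2 hq a₀
  obtain ⟨c₁, t₁, M₁⟩ := muck2 h₁ a₁
  obtain ⟨c₂, t₂, M₂⟩ := muck2 h₂ a₂
  obtain ⟨c₃, t₃, M₃⟩ := muck2 h₃ a₃
  refine ⟨_, fin5 ρ0 q0 z₁ z₂ z₃ hC.ne t₀ t₁ t₂ t₃, fun f₁ f₂ f₃ S hS => ?_⟩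
  set v : ℝ → ℝ≥0∞ := fun x => w₁ x ^ (1 / p₁) * w₂ x ^ (1 / p₂) * w₃ x ^ (1 / p₃) with hv
  have mv : Measurable v := ((a₁.1.pow_const _).mul (a₂.1.pow_const _)).mul (a₃.1.pow_const _)
  have pv : Pos v := by
    filter_upwards [a₁.2.1, a₂.2.1, a₃.2.1] with x x₁ x₂ x₃
    have y₁ := rpow_ne x₁ (1 / p₁)
    have y₂ := rpow_ne x₂ (1 / p₂)
    have y₃ := rpow_ne x₃ (1 / p₃)
    exact ⟨mul_ne_zero (mul_ne_zero y₁.1 y₂.1) y₃.1,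
      ENNReal.mul_ne_top (ENNReal.mul_ne_top y₁.2 y₂.2) y₃.2⟩
  rw [one_div r, ENNReal.rpow_inv_le_iff r0]
  refine trunc_sup ((hS.meas.enorm.mul mv).pow_const _) fun h mh hh ht =>
    finish ρ0 q0 r0 z₁ z₂ z₃ e ht ?_
  set g : ℝ → ℂ := fun x => ((v x * h x ^ (1 / q)).toReal : ℝ) with hg
  have mg : Measurable g := Complex.measurable_ofReal.comp (mv.mul (mh.pow_const _)).ennreal_toReal
  have eg : ∀ᵐ x, ‖g x‖ₑ = v x * h x ^ (1 / q) := pv.mono fun x hx =>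
    enorm_toReal (ENNReal.mul_ne_top hx.2 (ENNReal.rpow_ne_top_of_nonneg (by positivity)
      (ne_top_of_le_ne_top (ENNReal.rpow_ne_top_of_nonneg r0.le
        (ENNReal.mul_ne_top enorm_ne_top hx.2)) (hh x))))
  have s1 : ∫⁻ x, h x ≤ ∫⁻ x, ‖g x * S x‖ₑ ^ ρ := by
    refine lintegral_mono_ae (eg.mono fun x hx => ?_)
    calc h x = h x ^ (ρ / q) * h x ^ (ρ / r) := by
          rw [← ENNReal.rpow_add_of_nonneg _ _ (by positivity) (by positivity), e, ENNReal.rpow_one]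
      _ ≤ h x ^ (ρ / q) * ((‖S x‖ₑ * v x) ^ r) ^ (ρ / r) :=
          mul_le_mul_right (ENNReal.rpow_le_rpow (hh x) (by positivity)) _
      _ = _ := by
          rw [enorm_mul, hx, ← ENNReal.rpow_mul, mul_div_cancel₀ _ r0.ne', ← one_div_mul_eq_div,
            ENNReal.rpow_mul, ← ENNReal.mul_rpow_of_nonneg _ _ ρ0.le]
          congr 1
          ring
  have s2 : ∫⁻ x, ‖g x‖ₑ ^ q * v x ^ (-q) = ∫⁻ x, h x := by
    refine lintegral_congr_ae ?_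
    filter_upwards [eg, pv] with x hx hx'
    rw [hx, ENNReal.mul_rpow_of_nonneg _ _ q0.le, ← ENNReal.rpow_mul, one_div_mul_cancel q0.ne',
      ENNReal.rpow_one, mul_right_comm, ← ENNReal.rpow_add _ _ hx'.1 hx'.2, add_neg_cancel,
      ENNReal.rpow_zero, one_mul]
  refine s1.trans ((HD f₁ f₂ f₃ S hS g mg).trans (mul_le_mul_right ?_ _))
  refine le_trans (lintegral_mono_ae (pv.mono fun x hx => ?_)) ((holder4 volume
    (((N2_meas g).pow_const (q / 2)).fun_mul (mv.pow_const (-q)))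
    (((N2_meas f₁).pow_const (p₁ / 2)).fun_mul a₁.1) (((N2_meas f₂).pow_const (p₂ / 2)).fun_mul a₂.1)
    (((N2_meas f₃).pow_const (p₃ / 2)).fun_mul a₃.1) (by positivity) (by positivity) (by positivity)
    (by positivity) e4).trans ?_)
  · have one : (v x ^ (-q)) ^ (ρ / q) * (w₁ x ^ (ρ / p₁) * w₂ x ^ (ρ / p₂) * w₃ x ^ (ρ / p₃)) = 1 := by
      have : w₁ x ^ (ρ / p₁) * w₂ x ^ (ρ / p₂) * w₃ x ^ (ρ / p₃) = v x ^ ρ := by
        simp only [hv, ENNReal.mul_rpow_of_nonneg _ _ ρ0.le, ← ENNReal.rpow_mul, one_div_mul_eq_div]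
      rw [this, ← ENNReal.rpow_mul, ← ENNReal.rpow_add _ _ hx.1 hx.2, neg_mul,
        mul_div_cancel₀ _ q0.ne', neg_add_cancel, ENNReal.rpow_zero]
    simp only [ENNReal.mul_rpow_of_nonneg _ _ ρ0.le,
      ENNReal.mul_rpow_of_nonneg _ _ (div_pos ρ0 q0).le,
      ENNReal.mul_rpow_of_nonneg _ _ (div_pos ρ0 z₁).le,
      ENNReal.mul_rpow_of_nonneg _ _ (div_pos ρ0 z₂).le,
      ENNReal.mul_rpow_of_nonneg _ _ (div_pos ρ0 z₃).le]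
    refine (mul_le_mul' (mul_le_mul' (mul_le_mul' (M2_pow g x q0 ρ0) (M2_pow f₁ x z₁ ρ0))
      (M2_pow f₂ x z₂ ρ0)) (M2_pow f₃ x z₃ ρ0)).trans (le_of_eq ?_)
    rw [← mul_one (_ * _ * _ * _), ← one]
    ring
  · rw [← s2]
    gcongr
    exacts [M₀ g mg, M₁ f₁ f₁.continuous.measurable, M₂ f₂ f₂.continuous.measurable,
      M₃ f₃ f₃.continuous.measurable]

/-- **vector-valued estimates** -/
theorem vector (HD : DomAll) {p₁ p₂ p₃ r s₁ s₂ s₃ σ : ℝ} (h₁ : 2 < p₁) (h₂ : 2 < p₂) (h₃ : 2 < p₃)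
    (k₁ : 2 < s₁) (k₂ : 2 < s₂) (k₃ : 2 < s₃) (hr : 1 / r = 1 / p₁ + 1 / p₂ + 1 / p₃)
    (hσ : 1 / σ = 1 / s₁ + 1 / s₂ + 1 / s₃) (r2 : r < 2) (σ2 : σ < 2)
    (hd : |1 / r - 1 / σ| < 1 / 2) : ∃ C : ℝ≥0∞, C < ∞ ∧
      ∀ (f₁ f₂ f₃ : ℕ → 𝓢(ℝ, ℂ)) (S : ℕ → ℝ → ℂ), (∀ k, IsT (f₁ k) (f₂ k) (f₃ k) (S k)) →
      (∫⁻ x, (∑' k, ‖S k x‖ₑ ^ σ) ^ (r / σ)) ^ (1 / r) ≤
        C * (∫⁻ x, (∑' k, ‖f₁ k x‖ₑ ^ s₁) ^ (p₁ / s₁)) ^ (1 / p₁) *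
          (∫⁻ x, (∑' k, ‖f₂ k x‖ₑ ^ s₂) ^ (p₂ / s₂)) ^ (1 / p₂) *
          (∫⁻ x, (∑' k, ‖f₃ k x‖ₑ ^ s₃) ^ (p₃ / s₃)) ^ (1 / p₃) := by
  have z₁ : 0 < p₁ := by linarith
  have z₂ : 0 < p₂ := by linarith
  have z₃ : 0 < p₃ := by linarith
  have y₁ : 0 < s₁ := by linarith
  have y₂ : 0 < s₂ := by linarith
  have y₃ : 0 < s₃ := by linarith
  have r0 : 0 < r := one_div_pos.1 (by rw [hr]; positivity)
  have σ0 : 0 < σ := one_div_pos.1 (by rw [hσ]; positivity)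
  obtain ⟨ρ, q, q', ρ0, ρ1, hq, hq', e, e'⟩ : ∃ ρ q q' : ℝ, 0 < ρ ∧ ρ ≤ 1 ∧ 2 < q ∧ 2 < q' ∧
      ρ / q + ρ / r = 1 ∧ ρ / q' + ρ / σ = 1 := by
    have a := one_div_lt_one_div_of_lt r0 r2
    have b := one_div_lt_one_div_of_lt σ0 σ2
    have d := abs_lt.1 hd
    set u := max 1 ((1 / r + 1 / σ + 1 / 2) / 2) with hu
    have u1 : 1 ≤ u := le_max_left _ _
    have u2 : (1 / r + 1 / σ + 1 / 2) / 2 ≤ u := le_max_right _ _
    have u3 : u < 1 / r + 1 / 2 := max_lt (by linarith) (by linarith [d.1])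
    have u4 : u < 1 / σ + 1 / 2 := max_lt (by linarith) (by linarith [d.2])
    have v1 : 0 < u - 1 / r := by linarith [d.2]
    have v2 : 0 < u - 1 / σ := by linarith [d.1]
    have u0 : u ≠ 0 := by linarith
    refine ⟨u⁻¹, (u - 1 / r)⁻¹, (u - 1 / σ)⁻¹, by positivity, inv_le_one_of_one_le₀ u1,
      (lt_inv_comm₀ two_pos v1).2 (by linarith), (lt_inv_comm₀ two_pos v2).2 (by linarith), ?_, ?_⟩
    all_goals
      rw [div_inv_eq_mul]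
      field_simp
      ring
  have q0 : 0 < q := by linarith
  have q0' : 0 < q' := by linarith
  have four : ∀ {q r a b c : ℝ}, ρ / q + ρ / r = 1 → 1 / r = 1 / a + 1 / b + 1 / c →
      ρ / q + ρ / a + ρ / b + ρ / c = 1 := fun {q r a b c} e hr => by
    have : ρ / r = ρ / a + ρ / b + ρ / c := by
      simp only [div_eq_mul_one_div ρ]
      rw [hr]
      ring
    linarith
  obtain ⟨C, hC, HD⟩ := HD ρ ρ0 ρ1
  obtain ⟨c₀, t₀, M₀⟩ := fs2 hq hq'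
  obtain ⟨c₁, t₁, M₁⟩ := fs2 h₁ k₁
  obtain ⟨c₂, t₂, M₂⟩ := fs2 h₂ k₂
  obtain ⟨c₃, t₃, M₃⟩ := fs2 h₃ k₃
  refine ⟨_, fin5 ρ0 q0 z₁ z₂ z₃ hC.ne t₀ t₁ t₂ t₃, fun f₁ f₂ f₃ S hS => ?_⟩
  rw [one_div r, ENNReal.rpow_inv_le_iff r0]
  set B := (C ^ (1 / ρ) * c₀ ^ (1 / q) * c₁ ^ (1 / p₁) * c₂ ^ (1 / p₂) * c₃ ^ (1 / p₃) *
    (∫⁻ x, (∑' k, ‖f₁ k x‖ₑ ^ s₁) ^ (p₁ / s₁)) ^ (1 / p₁) *
    (∫⁻ x, (∑' k, ‖f₂ k x‖ₑ ^ s₂) ^ (p₂ / s₂)) ^ (1 / p₂) *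
    (∫⁻ x, (∑' k, ‖f₃ k x‖ₑ ^ s₃) ^ (p₃ / s₃)) ^ (1 / p₃)) ^ r with hB
  have core : ∀ S : ℕ → ℝ → ℂ, (∀ k, Measurable (S k)) →
      (∀ k, Dom ρ C (S k) (f₁ k) (f₂ k) (f₃ k)) → (∀ x, ∑' k, ‖S k x‖ₑ ^ σ ≠ ∞) →
      ∫⁻ x, (∑' k, ‖S k x‖ₑ ^ σ) ^ (r / σ) ≤ B := by
    intro S mS dS fS
    have mA : Measurable fun x => ∑' k, ‖S k x‖ₑ ^ σ :=
      Measurable.tsum fun k => (mS k).enorm.pow_const _
    refine trunc_sup (mA.pow_const _) fun h mh hh ht => finish ρ0 q0 r0 z₁ z₂ z₃ e ht ?_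
    set G : ℕ → ℝ → ℝ≥0∞ := fun k x =>
      ‖S k x‖ₑ ^ (σ / q') * (∑' k, ‖S k x‖ₑ ^ σ) ^ (-(1 / q')) * h x ^ (1 / q) with hG
    have mG : ∀ k, Measurable (G k) := fun k =>
      (((mS k).enorm.pow_const _).mul (mA.pow_const _)).mul (mh.pow_const _)
    have zero : ∀ x, ∑' k, ‖S k x‖ₑ ^ σ = 0 → ∀ k, G k x = 0 := fun x hx k => by
      simp only [hG]
      rw [(ENNReal.rpow_eq_zero_iff_of_pos σ0).1 (ENNReal.tsum_eq_zero.1 hx k),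
        ENNReal.zero_rpow_of_pos (by positivity), zero_mul, zero_mul]
    have fG : ∀ k x, G k x ≠ ∞ := fun k x => by
      rcases eq_or_ne (∑' k, ‖S k x‖ₑ ^ σ) 0 with A0 | A0
      · rw [zero x A0]
        exact ENNReal.zero_ne_top
      · exact ENNReal.mul_ne_top (ENNReal.mul_ne_top (ENNReal.rpow_ne_top_of_nonneg (by positivity)
          enorm_ne_top) (rpow_ne ⟨A0, fS x⟩ _).2) (ENNReal.rpow_ne_top_of_nonneg (by positivity)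
            (ne_top_of_le_ne_top (ENNReal.rpow_ne_top_of_nonneg (by positivity) (fS x)) (hh x)))
    set g : ℕ → ℝ → ℂ := fun k x => ((G k x).toReal : ℝ) with hg
    have mg : ∀ k, Measurable (g k) := fun k => Complex.measurable_ofReal.comp (mG k).ennreal_toReal
    have eg : ∀ k x, ‖g k x‖ₑ = G k x := fun k x => enorm_toReal (fG k x)
    have s1 : ∀ x, h x ≤ ∑' k, ‖g k x * S k x‖ₑ ^ ρ := fun x => by
      rcases eq_or_ne (∑' k, ‖S k x‖ₑ ^ σ) 0 with A0 | A0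
      · have := hh x
        rw [A0, ENNReal.zero_rpow_of_pos (by positivity)] at this
        exact this.trans zero_le
      have e1 : ∀ k, ‖g k x * S k x‖ₑ ^ ρ =
          ‖S k x‖ₑ ^ σ * ((∑' k, ‖S k x‖ₑ ^ σ) ^ (-(ρ / q')) * h x ^ (ρ / q)) := fun k => by
        have : ‖S k x‖ₑ ^ σ = ‖S k x‖ₑ ^ (σ / q' * ρ) * ‖S k x‖ₑ ^ ρ := by
          rw [← ENNReal.rpow_add_of_nonneg _ _ (by positivity) ρ0.le]
          congr 1
          have : ρ / σ * σ = ρ := div_mul_cancel₀ _ σ0.ne'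
          have e2 : σ / q' * ρ = ρ / q' * σ := by ring
          rw [e2, ← this, ← add_mul, this, e', one_mul]
        rw [enorm_mul, eg]
        simp only [hG, ENNReal.mul_rpow_of_nonneg _ _ ρ0.le, ← ENNReal.rpow_mul, neg_mul,
          one_div_mul_eq_div]
        rw [this]
        ring
      simp only [e1]
      rw [ENNReal.tsum_mul_right, ← mul_assoc]
      nth_rewrite 1 [← ENNReal.rpow_one (∑' k, ‖S k x‖ₑ ^ σ)]
      rw [← ENNReal.rpow_add _ _ A0 (fS x), show 1 + -(ρ / q') = r / σ * (ρ / r) by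
        rw [div_mul_div_comm, mul_comm σ, mul_div_mul_left _ _ r0.ne']; linarith, ENNReal.rpow_mul]
      calc h x = h x ^ (ρ / r) * h x ^ (ρ / q) := by
            rw [← ENNReal.rpow_add_of_nonneg _ _ (by positivity) (by positivity), add_comm, e,
              ENNReal.rpow_one]
        _ ≤ _ := mul_le_mul_left (ENNReal.rpow_le_rpow (hh x) (by positivity)) _
    have s2 : ∀ x, (∑' k, ‖g k x‖ₑ ^ q') ^ (q / q') ≤ h x := fun x => by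
      have e1 : ∀ k, ‖g k x‖ₑ ^ q' =
          ‖S k x‖ₑ ^ σ * ((∑' k, ‖S k x‖ₑ ^ σ)⁻¹ * h x ^ (q' / q)) := fun k => by
        rw [eg]
        simp only [hG, ENNReal.mul_rpow_of_nonneg _ _ q0'.le, ← ENNReal.rpow_mul, neg_mul,
          one_div_mul_eq_div, div_mul_cancel₀ _ q0'.ne', ENNReal.rpow_neg_one,
          mul_assoc]
      simp only [e1]
      rw [ENNReal.tsum_mul_right, ← mul_assoc]
      refine (ENNReal.rpow_le_rpow (mul_le_mul_left (ENNReal.mul_inv_le_one _) _)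
        (by positivity)).trans (le_of_eq ?_)
      rw [one_mul, ← ENNReal.rpow_mul, div_mul_div_cancel₀ q0.ne', div_self q0'.ne',
        ENNReal.rpow_one]
    have mN : ∀ (f : ℕ → ℝ → ℂ) (s : ℝ), Measurable fun x => ∑' k, N2 (f k) x ^ s := fun f s =>
      Measurable.tsum fun k => (N2_meas _).pow_const _
    have mP : ∀ k, Measurable fun x => (N2 (g k) x ^ (q' / 2)) ^ (ρ / q') *
        (N2 (f₁ k) x ^ (s₁ / 2)) ^ (ρ / s₁) * (N2 (f₂ k) x ^ (s₂ / 2)) ^ (ρ / s₂) *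
        (N2 (f₃ k) x ^ (s₃ / 2)) ^ (ρ / s₃) := fun k =>
      (((((N2_meas _).pow_const _).pow_const _).mul (((N2_meas _).pow_const _).pow_const _)).mul
        (((N2_meas _).pow_const _).pow_const _)).mul (((N2_meas _).pow_const _).pow_const _)
    calc ∫⁻ x, h x ≤ ∫⁻ x, ∑' k, ‖g k x * S k x‖ₑ ^ ρ := lintegral_mono s1
      _ = ∑' k, ∫⁻ x, ‖g k x * S k x‖ₑ ^ ρ :=
          lintegral_tsum fun k => (((mg k).mul (mS k)).enorm.pow_const _).aemeasurable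
      _ ≤ ∑' k, C * ∫⁻ x, _ := ENNReal.tsum_le_tsum fun k => (dS k (g k) (mg k)).trans
          (mul_le_mul_right (lintegral_mono fun x => by
            simp only [ENNReal.mul_rpow_of_nonneg _ _ ρ0.le]
            exact mul_le_mul' (mul_le_mul' (mul_le_mul' (M2_pow (g k) x q0' ρ0)
              (M2_pow (f₁ k) x y₁ ρ0)) (M2_pow (f₂ k) x y₂ ρ0)) (M2_pow (f₃ k) x y₃ ρ0)) _)
      _ = C * ∫⁻ x, ∑' k, _ := by
          rw [ENNReal.tsum_mul_left, lintegral_tsum fun k => (mP k).aemeasurable]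
      _ ≤ _ := by
          refine mul_le_mul_right (le_trans (lintegral_mono fun x => ?_) ((holder4 volume
            ((mN g (q' / 2)).pow_const (q / q')) ((mN (fun k => f₁ k) (s₁ / 2)).pow_const (p₁ / s₁))
            ((mN (fun k => f₂ k) (s₂ / 2)).pow_const (p₂ / s₂))
            ((mN (fun k => f₃ k) (s₃ / 2)).pow_const (p₃ / s₃)) (by positivity) (by positivity)
            (by positivity) (by positivity) (four e hr)).trans ?_)) _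
          · have k := holder4 (Measure.count : Measure ℕ)
              (measurable_of_countable fun k => N2 (g k) x ^ (q' / 2))
              (measurable_of_countable fun k => N2 (f₁ k) x ^ (s₁ / 2))
              (measurable_of_countable fun k => N2 (f₂ k) x ^ (s₂ / 2))
              (measurable_of_countable fun k => N2 (f₃ k) x ^ (s₃ / 2)) (by positivity)
              (by positivity) (by positivity) (by positivity) (four e' hσ)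
            simp only [lintegral_count] at k
            refine k.trans (le_of_eq ?_)
            have j : ∀ {a b : ℝ}, 0 < a → a / b * (ρ / a) = ρ / b := fun ha => by
              field_simp
            simp only [← ENNReal.rpow_mul (∑' _, _), j q0, j z₁, j z₂, j z₃]
          · gcongr
            exacts [(M₀ g mg).trans (mul_le_mul_right (lintegral_mono s2) _),
              M₁ _ fun k => (f₁ k).continuous.measurable, M₂ _ fun k => (f₂ k).continuous.measurable,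
              M₃ _ fun k => (f₃ k).continuous.measurable]
  have es : ∀ (n : ℕ) (x : ℝ), ∑' k, ‖(if k < n then S k else 0) x‖ₑ ^ σ =
      ∑ k ∈ Finset.range n, ‖S k x‖ₑ ^ σ := fun n x => by
    rw [tsum_eq_sum (s := Finset.range n) fun k hk => by
      rw [if_neg (by simpa using hk), Pi.zero_apply, enorm_zero, ENNReal.zero_rpow_of_pos σ0]]
    exact Finset.sum_congr rfl fun k hk => by rw [if_pos (Finset.mem_range.1 hk)]
  have lim : ∀ x, (∑' k, ‖S k x‖ₑ ^ σ) ^ (r / σ) =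
      liminf (fun n => (∑ k ∈ Finset.range n, ‖S k x‖ₑ ^ σ) ^ (r / σ)) atTop := fun x =>
    ((ENNReal.continuous_rpow_const.tendsto _).comp (ENNReal.tendsto_nat_tsum _)).liminf_eq.symm
  rw [lintegral_congr lim]
  refine (lintegral_liminf_le fun n => (Finset.measurable_sum _ fun k _ =>
    (hS k).meas.enorm.pow_const _).pow_const _).trans
    (liminf_le_of_frequently_le' (Frequently.of_forall fun n => ?_))
  simp only [← es]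
  refine core _ (fun k => ?_) (fun k => ?_) fun x => ?_
  · split_ifs
    exacts [(hS k).meas, measurable_const]
  · split_ifs
    · exact HD _ _ _ _ (hS k)
    · intro g _
      simp [ρ0]
  · rw [es]
    exact ENNReal.sum_ne_top.2 fun k _ => ENNReal.rpow_ne_top_of_nonneg σ0.le enorm_ne_top

end Vale.Agent.N141W
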